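import Vale.Agent.P147.Law.Defs

/-!
The apex identity: a walk climbing `n` blocks and descending forever on fresh sites determines `n`.
-/

noncomputable section

namespace Vale.Agent.P147.Law

open MeasureTheory ProbabilityTheory
open scoped ENNReal

variable {d : ℕ} {μ : Measure (Row d)} {ℓ : Fin d → ℤ}

/-- Descending forever from `z` on sites that are not sources of `c`. -/
def DescAvoid (ℓ : Fin d → ℤ) (c : List (Dir d)) (z : Fin d → ℤ) : Set (Walk d) :=
  Dp (-ℓ) ∩ Avoid {x | z + x ∈ srcs 0 c}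

lemma measurableSet_descAvoid (ℓ : Fin d → ℤ) (c : List (Dir d)) (z : Fin d → ℤ) :
    MeasurableSet (DescAvoid ℓ c z) :=
  (measurableSet_Dp _).inter (measurableSet_avoid _)

/-- The product weight of `n` blocks avoided by an independent descent from their top. -/
def avoidW (μ : Measure (Row d)) (ℓ : Fin d → ℤ) (n : ℕ) : ℝ≥0∞ :=
  ∑' bs : Fin n → Blk ℓ, W μ (cat bs) * annealed μ (DescAvoid ℓ (cat bs) (endPt (cat bs)))

/-- The product weight of `n` blocks met by an independent descent from their top. -/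
def meetW (μ : Measure (Row d)) (ℓ : Fin d → ℤ) (n : ℕ) : ℝ≥0∞ :=
  ∑' bs : Fin n → Blk ℓ, W μ (cat bs) *
    annealed μ (Dp (-ℓ) \ Avoid {x | endPt (cat bs) + x ∈ srcs 0 (cat bs)})

variable [IsProbabilityMeasure μ]

lemma avoidW_add_meetW (hp : annealed μ (Dp ℓ) ≠ 0) (n : ℕ) :
    avoidW μ ℓ n + meetW μ ℓ n = annealed μ (Dp (-ℓ)) := by
  rw [avoidW, meetW, ← ENNReal.tsum_add]
  calc _ = ∑' bs : Fin n → Blk ℓ, W μ (cat bs) * annealed μ (Dp (-ℓ)) := by
        refine tsum_congr fun bs => ?_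
        rw [← mul_add, DescAvoid, measure_inter_add_sdiff _ (measurableSet_avoid _)]
    _ = _ := by rw [ENNReal.tsum_mul_right, tsum_W_cat hp, one_mul]

/-- The events for different `n` are disjoint. -/
theorem tsum_avoidW_le : ∑' n, avoidW μ ℓ n ≤ 1 := by
  let E : (Σ n : ℕ, Fin n → Blk ℓ) → Set (Walk d) := fun x =>
    cyl (cat x.2) ∩ shift (cat x.2).length ⁻¹' DescAvoid ℓ (cat x.2) (endPt (cat x.2))
  have hm : ∀ x, MeasurableSet (E x) := fun x =>
    (measurableSet_cyl _).inter (measurable_shift _ (measurableSet_descAvoid _ _ _))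
  have hW : ∀ x, annealed μ (E x) =
      W μ (cat x.2) * annealed μ (DescAvoid ℓ (cat x.2) (endPt (cat x.2))) := fun x =>
    annealed_fresh _ (measurableSet_descAvoid _ _ _) fun s hs n => hs.2 n
  have hlev : ∀ x s, s ∈ E x →
      (∀ i < (cat x.2).length, lev ℓ (pos s i) < lev ℓ (pos s (cat x.2).length)) ∧
      ∀ i, (cat x.2).length ≤ i → lev ℓ (pos s i) ≤ lev ℓ (pos s (cat x.2).length) := by
    intro x s hs
    refine ⟨fun i hi => ?_, fun i hi => ?_⟩
    · rw [pos_of_mem_cyl hs.1 hi.le, pos_of_mem_cyl hs.1 le_rfl, List.take_length]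
      exact cat_last x.2 i hi
    · obtain ⟨j, rfl⟩ := Nat.exists_eq_add_of_le hi
      rw [lev_pos_shift]
      have h := hs.2.1.1 j
      rw [lev_neg_left] at h
      linarith
  have hd : Pairwise fun x y => Disjoint (E x) (E y) := by
    intro x y hne
    refine Set.disjoint_left.2 fun s hx hy => hne ?_
    obtain ⟨h1, h2⟩ := hlev x s hx
    obtain ⟨h3, h4⟩ := hlev y s hy
    have hlen : (cat x.2).length = (cat y.2).length := by
      rcases lt_trichotomy (cat x.2).length (cat y.2).length with h | h | h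
      · exact absurd (h2 _ h.le) (not_le.2 (h3 _ h))
      · exact h
      · exact absurd (h4 _ h.le) (not_le.2 (h1 _ h))
    have hcat : cat x.2 = cat y.2 := by
      rw [← (mem_cyl_iff _ s).1 hx.1, hlen, (mem_cyl_iff _ s).1 hy.1]
    obtain ⟨n, u⟩ := x
    obtain ⟨m, v⟩ := y
    obtain ⟨e, he⟩ := cat_inj u v hcat
    cases e
    rw [← he]
    rfl
  calc ∑' n, avoidW μ ℓ n = ∑' x, annealed μ (E x) := by
        simp only [avoidW, hW]
        exact (ENNReal.tsum_sigma' (fun x : Σ n : ℕ, Fin n → Blk ℓ =>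
          W μ (cat x.2) * annealed μ (DescAvoid ℓ (cat x.2) (endPt (cat x.2))))).symm
    _ = annealed μ (⋃ x, E x) := (measure_iUnion hd hm).symm
    _ ≤ 1 := prob_le_one

end Vale.Agent.P147.Law
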