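import Vale.Agent.P147.Law.Apex

/-!
Descents meeting a climb for the first time, in the order of the climb, inside a band of blocks.
-/

noncomputable section

namespace Vale.Agent.P147.Law

open MeasureTheory ProbabilityTheory
open scoped ENNReal

variable {d : ℕ} {μ : Measure (Row d)} {ℓ : Fin d → ℤ}

/-- The descent from `z` reaches the end of `c` and avoids its sources. -/
def HitEv (ℓ : Fin d → ℤ) (c : List (Dir d)) (z : Fin d → ℤ) : Set (Walk d) :=
  DescAvoid ℓ c z ∩ {r | ∃ i, z + pos r i = endPt c}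

lemma measurableSet_hitEv (ℓ : Fin d → ℤ) (c : List (Dir d)) (z : Fin d → ℤ) :
    MeasurableSet (HitEv ℓ c z) := by
  refine (measurableSet_descAvoid ℓ c z).inter ?_
  have : {r : Walk d | ∃ i, z + pos r i = endPt c} =
      ⋃ i, (fun r : Walk d => pos r i) ⁻¹' {x | z + x = endPt c} := by ext; simp
  rw [this]
  exact MeasurableSet.iUnion fun i => measurable_pos i (Set.to_countable _).measurableSet

/-- The first meeting of the climb `A` by a descent from its top has an index in `[a, b)`. -/
def FirstHitIn (ℓ : Fin d → ℤ) (A : List (Dir d)) (a b : ℕ) : Set (Walk d) :=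
  ⋃ τ ∈ Finset.Ico a b, HitEv ℓ (A.take τ) (endPt A)

/-- The product weight of a first meeting inside the band of `n₁` blocks below the top `n₂`. -/
def bandW (μ : Measure (Row d)) (ℓ : Fin d → ℤ) (n₀ n₁ n₂ : ℕ) : ℝ≥0∞ :=
  ∑' u : Fin n₀ → Blk ℓ, ∑' v : Fin n₁ → Blk ℓ, ∑' w : Fin n₂ → Blk ℓ,
    W μ (cat u) * W μ (cat v) * W μ (cat w) *
      annealed μ (FirstHitIn ℓ (cat u ++ cat v ++ cat w) (cat u).length
        ((cat u).length + (cat v).length))

end Vale.Agent.P147.Law
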