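import Vale.Agent.P147.Renewal

/-!
The quenched strong Markov property at first passages.
-/

noncomputable section

namespace Vale.Agent.P147.Law

open MeasureTheory ProbabilityTheory
open scoped ENNReal

variable {d : ℕ}

/-- Paths at which `P` holds for the first time. -/
def First (P : List (Dir d) → Prop) : Set (List (Dir d)) :=
  {l | P l ∧ ∀ i < l.length, ¬P (l.take i)}

lemma take_pre (s : Walk d) {i n : ℕ} (h : i ≤ n) : (pre s n).take i = pre s i :=
  List.ext_getElem (by simp; omega) fun j h1 h2 => by simp [getElem_pre]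

lemma first_unique (P : List (Dir d) → Prop) (s : Walk d) (a b : ℕ) (ha : pre s a ∈ First P)
    (hb : pre s b ∈ First P) : a = b := by
  rcases lt_trichotomy a b with h | h | h
  · exact absurd (take_pre s h.le ▸ ha.1) (hb.2 a (by simpa using h))
  · exact h
  · exact absurd (take_pre s h.le ▸ hb.1) (ha.2 b (by simpa using h))

lemma exists_first (P : List (Dir d) → Prop) {s : Walk d} (h : ∃ i, P (pre s i)) :
    ∃ i, pre s i ∈ First P ∧ ∀ j < i, ¬P (pre s j) := by
  classical
  refine ⟨Nat.find h, ⟨Nat.find_spec h, fun j hj => ?_⟩, fun j hj => Nat.find_min h hj⟩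
  rw [length_pre] at hj
  rw [take_pre s hj.le]
  exact Nat.find_min h hj

lemma tau_tau' (x y : Fin d → ℤ) (ω : Env d) : tau y (tau x ω) = tau (x + y) ω := by
  funext z; simp [tau, add_assoc]

/-- The Markov property at the end of a fixed prefix, from an arbitrary starting point. -/
lemma quenched_markov' (ω : Env d) (z : Fin d → ℤ) (l : List (Dir d)) {E : Set (Walk d)}
    (hE : MeasurableSet E) :
    quenched (tau z ω) (cyl l ∩ shift l.length ⁻¹' E) =
      qw ω z l * quenched (tau (z + endPt l) ω) E := by
  rw [quenched_markov _ _ hE, qw_tau, add_zero, tau_tau']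

lemma quenched_cyl' (ω : Env d) (z : Fin d → ℤ) (l : List (Dir d)) :
    quenched (tau z ω) (cyl l) = qw ω z l := by
  rw [quenched_cyl, qw_tau, add_zero]

lemma tsum_qw_le {S : Set (List (Dir d))}
    (h : ∀ s : Walk d, ∀ a b, pre s a ∈ S → pre s b ∈ S → a = b) (ω : Env d) (z : Fin d → ℤ) :
    ∑' l : S, qw ω z l.1 ≤ 1 := by
  simp only [← quenched_cyl']
  rw [← measure_iUnion (cyl_pairwise_disjoint h) fun l => measurableSet_cyl _]
  exact prob_le_one

/-- A walk that visits a site from which `E` is unlikely and realises `E` from all the sites it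
visits has small probability. -/
theorem hit_bad_le (ω : Env d) (z : Fin d → ℤ) (η : ℝ≥0∞) (E : (Fin d → ℤ) → Set (Walk d))
    (hE : ∀ x, MeasurableSet (E x)) :
    quenched (tau z ω) {r | (∃ i, quenched (tau (z + pos r i) ω) (E (z + pos r i)) < η) ∧
      ∀ i, shift i r ∈ E (z + pos r i)} ≤ η := by
  classical
  set P : List (Dir d) → Prop := fun l => quenched (tau (z + endPt l) ω) (E (z + endPt l)) < η
  calc _ ≤ quenched (tau z ω)
        (⋃ l : First P, cyl l.1 ∩ shift l.1.length ⁻¹' E (z + endPt l.1)) := by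
        refine measure_mono fun r hr => ?_
        obtain ⟨i, hi⟩ := hr.1
        obtain ⟨j, hj, -⟩ := exists_first P (s := r) ⟨i, by simpa [P, endPt_pre] using hi⟩
        refine Set.mem_iUnion.2 ⟨⟨_, hj⟩, by rw [mem_cyl_iff]; simp, ?_⟩
        simpa [endPt_pre] using hr.2 j
    _ ≤ ∑' l : First P, qw ω z l.1 * quenched (tau (z + endPt l.1) ω) (E (z + endPt l.1)) := by
        refine (measure_iUnion_le _).trans (ENNReal.tsum_le_tsum fun l => ?_)
        rw [quenched_markov' _ _ _ (hE _)]
    _ ≤ ∑' l : First P, qw ω z l.1 * η :=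
        ENNReal.tsum_le_tsum fun l => mul_le_mul' le_rfl l.2.1.le
    _ ≤ η := by
        rw [ENNReal.tsum_mul_right]
        exact mul_le_of_le_one_left' (tsum_qw_le (first_unique P) ω z)

/-- Reaching a site from which `E` has probability at least `η`. -/
theorem hit_good_le (ω : Env d) (z : Fin d → ℤ) (η : ℝ≥0∞) (E : (Fin d → ℤ) → Set (Walk d))
    (hE : ∀ x, MeasurableSet (E x)) (C : List (Dir d) → Prop) :
    η * quenched (tau z ω) {r | ∃ i, C (pre r i) ∧
        η ≤ quenched (tau (z + pos r i) ω) (E (z + pos r i))} ≤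
      quenched (tau z ω) {r | ∃ i, C (pre r i) ∧ shift i r ∈ E (z + pos r i)} := by
  classical
  set P : List (Dir d) → Prop :=
    fun l => C l ∧ η ≤ quenched (tau (z + endPt l) ω) (E (z + endPt l))
  calc _ ≤ η * quenched (tau z ω) (⋃ l : First P, cyl l.1) := by
        refine mul_le_mul' le_rfl (measure_mono fun r hr => ?_)
        obtain ⟨i, hi⟩ := hr
        obtain ⟨j, hj, -⟩ := exists_first P (s := r) ⟨i, by simpa [P, endPt_pre] using hi⟩
        exact Set.mem_iUnion.2 ⟨⟨_, hj⟩, by rw [mem_cyl_iff]; simp⟩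
    _ ≤ ∑' l : First P, η * qw ω z l.1 := by
        rw [ENNReal.tsum_mul_left]
        refine mul_le_mul' le_rfl ((measure_iUnion_le _).trans (le_of_eq ?_))
        simp [quenched_cyl']
    _ ≤ ∑' l : First P,
          quenched (tau z ω) (cyl l.1 ∩ shift l.1.length ⁻¹' E (z + endPt l.1)) :=
        ENNReal.tsum_le_tsum fun l => by
          rw [quenched_markov' _ _ _ (hE _), mul_comm η]
          exact mul_le_mul' le_rfl l.2.1.2
    _ = quenched (tau z ω)
          (⋃ l : First P, cyl l.1 ∩ shift l.1.length ⁻¹' E (z + endPt l.1)) :=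
        (measure_iUnion (fun l m hlm =>
          (cyl_pairwise_disjoint (first_unique P) hlm).mono Set.inter_subset_left
            Set.inter_subset_left)
          fun l => (measurableSet_cyl _).inter (measurable_shift _ (hE _))).symm
    _ ≤ _ := by
        refine measure_mono (Set.iUnion_subset fun l s hs => ⟨l.1.length, ?_, ?_⟩)
        · rw [(mem_cyl_iff _ _).1 hs.1]; exact l.2.1.1
        · have := hs.2
          rw [Set.mem_preimage] at this
          rwa [← endPt_pre s l.1.length, (mem_cyl_iff _ _).1 hs.1]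

end Vale.Agent.P147.Law
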