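import Vale.Agent.P147.Main
import Vale.Agent.P147.Ergodic
import Vale.Agent.P147.Law.Markov

/-!
Positivity of the quenched probability of escaping without backtracking, in almost every
environment and from every site.
-/

noncomputable section

namespace Vale.Agent.P147.Law

open MeasureTheory ProbabilityTheory Filter
open scoped ENNReal Topology

variable {d : ℕ} {μ : Measure (Row d)} {ℓ : Fin d → ℤ}

lemma measurable_quenched_apply {E : Set (Walk d)} (hE : MeasurableSet E) :
    Measurable fun ω : Env d => quenched ω E :=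
  (Measure.measurable_coe hE).comp measurable_quenched

variable [IsProbabilityMeasure μ]

/-- In almost every environment every finite path has positive weight. -/
lemma ae_qw_pos (he : IsElliptic μ) :
    ∀ᵐ ω ∂envLaw μ, ∀ (x : Fin d → ℤ) (l : List (Dir d)), qw ω x l ≠ 0 := by
  have h1 : ∀ᵐ ω ∂envLaw μ, ∀ z e, 0 < (ω z).1 e := by
    rw [ae_all_iff]
    intro z
    exact (measurePreserving_eval_infinitePi (fun _ : Fin d → ℤ => μ) z).quasiMeasurePreserving.ae he
  filter_upwards [h1] with ω hω x l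
  induction l generalizing x with
  | nil => simp [qw]
  | cons e l ih => simp [qw, hω x e, ih]

/-- A path from the origin to a site of nonnegative level through nonnegative levels. -/
lemma exists_path_nonneg {y : Fin d → ℤ} (hy : 0 ≤ lev ℓ y) :
    ∃ l : List (Dir d), endPt l = y ∧ ∀ i ≤ l.length, 0 ≤ Lt ℓ l i := by
  classical
  obtain ⟨l, hl⟩ := exists_path y
  set p : Dir d → Bool := fun e => decide (0 ≤ lev ℓ (dirVec e))
  set l₁ := l.filter p
  set l₂ := l.filter fun e => !p e
  have hperm : (l₁ ++ l₂).Perm l := List.filter_append_perm _ l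
  have hend : endPt (l₁ ++ l₂) = y := by
    rw [← hl]; exact (hperm.map dirVec).sum_eq
  refine ⟨l₁ ++ l₂, hend, fun i hi => ?_⟩
  have hpos : ∀ m : List (Dir d), (∀ e ∈ m, 0 ≤ lev ℓ (dirVec e)) → 0 ≤ lev ℓ (endPt m) := by
    intro m hm
    rw [endPt, map_list_sum]
    refine List.sum_nonneg fun z hz => ?_
    obtain ⟨v, hv, rfl⟩ := List.mem_map.1 hz
    obtain ⟨e, hem, rfl⟩ := List.mem_map.1 hv
    exact hm e hem
  have hneg : ∀ m : List (Dir d), (∀ e ∈ m, lev ℓ (dirVec e) ≤ 0) → lev ℓ (endPt m) ≤ 0 := by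
    intro m hm
    induction m with
    | nil => simp
    | cons e m ih =>
      rw [endPt_cons, map_add]
      exact add_nonpos (hm e (by simp)) (ih fun e' he' => hm e' (by simp [he']))
  rcases le_or_gt i l₁.length with h | h
  · rw [Lt_append_left _ _ _ h]
    refine hpos _ fun e he' => ?_
    simpa [p] using (List.mem_filter.1 (List.take_subset _ _ he')).2
  · obtain ⟨j, rfl⟩ := Nat.exists_eq_add_of_le h.le
    rw [Lt_append_right]
    have h2 : lev ℓ (endPt l₂) =
        lev ℓ (endPt (l₂.take j)) + lev ℓ (endPt (l₂.drop j)) := by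
      rw [← map_add, ← endPt_append, List.take_append_drop]
    have h3 := hneg (l₂.drop j) fun e he' => by
      have := (List.mem_filter.1 (List.drop_subset _ _ he')).2
      simp [p] at this
      omega
    have h4 : 0 ≤ lev ℓ (endPt l₁) + lev ℓ (endPt l₂) := by
      rw [← map_add, ← endPt_append, hend]; exact hy
    simp only [Lt]
    linarith

/-- Under ellipticity, `P(D+) ≠ 0` implies `P^ω_x(D+) > 0` for almost every `ω` and every `x`. -/
theorem quenched_Dp_ne_zero (he : IsElliptic μ) (hp : annealed μ (Dp ℓ) ≠ 0) :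
    ∀ᵐ ω ∂envLaw μ, ∀ x, quenched (tau x ω) (Dp ℓ) ≠ 0 := by
  classical
  have hℓ : ℓ ≠ 0 := ne_zero_of_Dp hp
  have hd : 0 < d := by
    rcases Nat.eq_zero_or_pos d with rfl | h
    · exact absurd (funext fun i => i.elim0) hℓ
    · exact h
  obtain ⟨e, -, hup, -⟩ := exists_up hℓ
  set G₀ : Set (Env d) := {ω | quenched ω (Dp ℓ) ≠ 0} with hG₀
  have hG₀m : MeasurableSet G₀ :=
    measurable_quenched_apply (measurableSet_Dp ℓ) (measurableSet_singleton 0).compl
  set H : ℕ → Set (Env d) := fun n => ⋃ y ∈ {y : Fin d → ℤ | (n : ℤ) ≤ lev ℓ y}, tau y ⁻¹' G₀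
    with hH
  set G : Set (Env d) := ⋂ n, H n with hG
  have hHm : ∀ n, MeasurableSet (H n) := fun n =>
    MeasurableSet.biUnion (Set.to_countable _) fun y _ => measurable_tau y hG₀m
  have hGm : MeasurableSet G := MeasurableSet.iInter hHm
  have hHanti : Antitone H := fun a b hab =>
    Set.biUnion_subset_biUnion_left fun y hy =>
      show (a : ℤ) ≤ lev ℓ y from le_trans (Int.ofNat_le.2 hab) hy
  have hmem : ∀ ω, ω ∈ G ↔ ∀ b : ℤ, ∃ y, b ≤ lev ℓ y ∧ tau y ω ∈ G₀ := by
    intro ω
    simp only [hG, hH, Set.mem_iInter, Set.mem_iUnion, Set.mem_preimage, Set.mem_ofPred_eq,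
      exists_prop]
    refine ⟨fun h b => ?_, fun h n => h n⟩
    obtain ⟨y, hy, hy'⟩ := h b.toNat
    exact ⟨y, (Int.self_le_toNat b).trans hy, hy'⟩
  have hinv : ∀ x, tau x ⁻¹' G = G := by
    intro x
    ext ω
    simp only [Set.mem_preimage, hmem, tau_tau']
    constructor
    · intro h b
      obtain ⟨y, hy, hy'⟩ := h (b - lev ℓ x)
      exact ⟨x + y, by rw [map_add]; linarith, hy'⟩
    · intro h b
      obtain ⟨y, hy, hy'⟩ := h (b + lev ℓ x)
      exact ⟨y - x, by rw [map_sub]; linarith, by rwa [add_sub_cancel]⟩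
  have hp0 : envLaw μ G₀ ≠ 0 := by
    intro h0
    refine hp ?_
    rw [annealed_apply (measurableSet_Dp ℓ),
      lintegral_eq_zero_iff (measurable_quenched_apply (measurableSet_Dp ℓ))]
    exact h0
  have hGpos : envLaw μ G ≠ 0 := by
    intro h0
    have hlim := tendsto_measure_iInter_atTop (μ := envLaw μ)
      (fun n => (hHm n).nullMeasurableSet) hHanti ⟨0, measure_ne_top _ _⟩
    rw [← hG, h0] at hlim
    refine hp0 (le_antisymm (ge_of_tendsto' hlim fun n => ?_) bot_le)
    have hy : (n : ℤ) ≤ lev ℓ (n • dirVec e) := by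
      rw [map_nsmul, nsmul_eq_mul]
      exact le_mul_of_one_le_right (by positivity) hup
    calc envLaw μ G₀ = envLaw μ (tau (n • dirVec e) ⁻¹' G₀) := by
          rw [← Measure.map_apply (measurable_tau _) hG₀m, envLaw_map_tau]
      _ ≤ envLaw μ (H n) :=
          measure_mono (Set.subset_biUnion_of_mem (u := fun y => tau y ⁻¹' G₀) hy)
  have h1 : ∀ᵐ ω ∂envLaw μ, ω ∈ G :=
    (ae_iff_measure_eq hGm.nullMeasurableSet).2 <| by
      rw [measure_univ]
      exact (envLaw_invariant hd hGm fun x => Filter.EventuallyEq.of_eq (hinv x)).resolve_left hGpos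
  filter_upwards [h1, ae_qw_pos he] with ω hω hq x
  obtain ⟨y, hy, hy'⟩ := (hmem ω).1 hω (lev ℓ x)
  obtain ⟨l, hl, hnn⟩ := exists_path_nonneg (ℓ := ℓ) (y := y - x) (by rw [map_sub]; linarith)
  intro h0
  have hsub : cyl l ∩ shift l.length ⁻¹' Dp ℓ ⊆ Dp ℓ := by
    rintro s ⟨hs, hs'⟩
    refine ⟨fun n => ?_, (tendsto_shift_iff s _).1 hs'.2⟩
    rcases le_or_gt n l.length with h | h
    · rw [pos_of_mem_cyl hs h]; exact hnn n h
    · obtain ⟨j, rfl⟩ := Nat.exists_eq_add_of_le h.le
      rw [lev_pos_shift, pos_of_mem_cyl hs le_rfl, List.take_length]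
      have h3 := hnn l.length le_rfl
      rw [Lt_length] at h3
      exact add_nonneg h3 (hs'.1 j)
  have h2 := measure_mono_null hsub h0
  rw [quenched_markov _ _ (measurableSet_Dp ℓ), qw_tau, tau_tau', hl, add_sub_cancel] at h2
  rcases mul_eq_zero.1 h2 with h | h
  · exact hq _ _ h
  · exact hy' h

/-- Small quenched probabilities of `D+` are rare. -/
theorem exists_small_Dp (he : IsElliptic μ) (hp : annealed μ (Dp ℓ) ≠ 0) {ε : ℝ≥0∞} (hε : ε ≠ 0) :
    ∃ η : ℝ≥0∞, η ≠ 0 ∧ η ≤ 1 ∧ envLaw μ {ω | quenched ω (Dp ℓ) < η} ≤ ε := by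
  set A : ℕ → Set (Env d) := fun k => {ω | quenched ω (Dp ℓ) < ((k + 1 : ℕ) : ℝ≥0∞)⁻¹}
  have hAm : ∀ k, MeasurableSet (A k) := fun k =>
    measurableSet_lt (measurable_quenched_apply (measurableSet_Dp ℓ)) measurable_const
  have anti : Antitone A := fun i j hij ω hω =>
    lt_of_lt_of_le (show quenched ω (Dp ℓ) < _ from hω)
      (ENNReal.inv_le_inv.2 (Nat.cast_le.2 (by omega)))
  have h0 : envLaw μ (⋂ k, A k) = 0 := by
    refine measure_mono_null (fun ω hω => ?_) (ae_iff.1 (quenched_Dp_ne_zero he hp))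
    simp only [Set.mem_iInter, A, Set.mem_ofPred_eq] at hω
    simp only [Set.mem_ofPred_eq, not_forall, not_not]
    refine ⟨0, ?_⟩
    have ht : tau (0 : Fin d → ℤ) ω = ω := by funext z; simp [tau]
    rw [ht]
    by_contra hne
    obtain ⟨k, hk⟩ := ENNReal.exists_inv_nat_lt hne
    exact absurd ((hω k).trans_le ((ENNReal.inv_le_inv.2 (Nat.cast_le.2 (by omega))).trans hk.le))
      (lt_irrefl _)
  have hlim := tendsto_measure_iInter_atTop (μ := envLaw μ) (fun k => (hAm k).nullMeasurableSet)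
    anti ⟨0, measure_ne_top _ _⟩
  rw [h0] at hlim
  obtain ⟨k, hk⟩ := ((ENNReal.tendsto_nhds_zero.1 hlim) ε (pos_iff_ne_zero.2 hε)).exists
  exact ⟨_, by simp, ENNReal.inv_le_one.2 (by exact_mod_cast (by omega : 1 ≤ k + 1)), hk⟩

end Vale.Agent.P147.Law
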