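import Vale.Agent.P147.Law.Post
import Vale.Agent.P147.Law.BandDefs
import Vale.Agent.P147.Law.Positive

/-!
The turn lemma: first meetings inside a band force the walk itself to turn below the top level.
-/

noncomputable section

namespace Vale.Agent.P147.Law

open MeasureTheory ProbabilityTheory
open scoped ENNReal

variable {d : ℕ} {μ : Measure (Row d)} {ℓ : Fin d → ℤ} {n₁ n₂ : ℕ} {Ns : Finset ℕ}

open scoped Classical in
/-- The accumulated posterior of the tops at level `L` along a finite path. -/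
def sLev (μ : Measure (Row d)) (ℓ : Fin d → ℤ) (Ns : Finset ℕ) (n₁ n₂ : ℕ) (L : ℤ)
    (A : List (Dir d)) : ℝ≥0∞ :=
  ∑' z, if lev ℓ z = L then
    ⨆ t ∈ Finset.range (A.length + 1), mHat μ ℓ Ns n₁ n₂ z (A.take t) else 0

/-- Configurations kept by the turn lemma. -/
def Kept (μ : Measure (Row d)) (R : ℕ) (Λ : ℝ≥0∞) (x : Conf ℓ Ns n₁ n₂) : Prop :=
  lev ℓ (endPt (cat x.2.2.1)) + lev ℓ (endPt (cat x.2.2.2)) ≤ R ∧
    sLev μ ℓ Ns n₁ n₂ (lev ℓ (endPt (cpath x))) (cpath x) ≤ Λ

/-- The configuration has top `z` and band passing through the prefix `c`. -/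
def InBand (μ : Measure (Row d)) (R : ℕ) (Λ : ℝ≥0∞) (z : Fin d → ℤ) (c : List (Dir d))
    (x : Conf ℓ Ns n₁ n₂) : Prop :=
  endPt (cpath x) = z ∧ (cat x.2.1).length ≤ c.length ∧
    c.length < (cat x.2.1).length + (cat x.2.2.1).length ∧ (cpath x).take c.length = c ∧
      Kept μ R Λ x

open scoped Classical in
/-- The weight of the kept configurations through `c` with top `z`. -/
def bandT (μ : Measure (Row d)) (ℓ : Fin d → ℤ) (Ns : Finset ℕ) (n₁ n₂ R : ℕ) (Λ : ℝ≥0∞)
    (z : Fin d → ℤ) (c : List (Dir d)) : ℝ≥0∞ :=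
  ∑' x : Conf ℓ Ns n₁ n₂, if InBand μ R Λ z c x then cwt μ x else 0

open scoped Classical in
/-- The weight of the band top exceeding the level cap. -/
def capW (μ : Measure (Row d)) (ℓ : Fin d → ℤ) (b R : ℕ) : ℝ≥0∞ :=
  ∑' bs : Fin b → Blk ℓ, if (R : ℤ) < lev ℓ (endPt (cat bs)) then W μ (cat bs) else 0

/-- Staying below `L` and escaping downwards, seen from `x`. -/
def Stay (ℓ : Fin d → ℤ) (L : ℤ) (x : Fin d → ℤ) : Set (Walk d) :=
  Ap (-ℓ) ∩ {s | ∀ j, lev ℓ (x + pos s j) ≤ L}

lemma measurableSet_stay (ℓ : Fin d → ℤ) (L : ℤ) (x : Fin d → ℤ) :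
    MeasurableSet (Stay ℓ L x) := by
  refine (measurableSet_Ap _).inter ?_
  have : {s : Walk d | ∀ j, lev ℓ (x + pos s j) ≤ L} =
      ⋂ j, (fun s : Walk d => pos s j) ⁻¹' {y | lev ℓ (x + y) ≤ L} := by ext; simp
  rw [this]
  exact MeasurableSet.iInter fun j => measurable_pos j (Set.to_countable _).measurableSet

/-- The walk turns: it stays below `L`, comes within `R` of it and escapes downwards. -/
def Turn (ℓ : Fin d → ℤ) (R : ℕ) (L : ℤ) : Set (Walk d) :=
  Stay ℓ L 0 ∩ {s | ∃ j, L - R ≤ lev ℓ (pos s j)}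

lemma measurableSet_turn (ℓ : Fin d → ℤ) (R : ℕ) (L : ℤ) : MeasurableSet (Turn ℓ R L) := by
  refine (measurableSet_stay ℓ L 0).inter ?_
  have : {s : Walk d | ∃ j, L - R ≤ lev ℓ (pos s j)} =
      ⋃ j, (fun s : Walk d => pos s j) ⁻¹' {y | L - R ≤ lev ℓ y} := by ext; simp
  rw [this]
  exact MeasurableSet.iUnion fun j => measurable_pos j (Set.to_countable _).measurableSet

variable [IsProbabilityMeasure μ]

/-- The weight through a prefix is bounded by the posterior. -/
lemma bandT_le (hp : annealed μ (Dp ℓ) ≠ 0) (he : IsElliptic μ) (R : ℕ) (Λ : ℝ≥0∞)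
    (z : Fin d → ℤ) (c : List (Dir d)) :
    bandT μ ℓ Ns n₁ n₂ R Λ z c ≤ mHat μ ℓ Ns n₁ n₂ z c * W μ c := by
  classical
  set p := annealed μ (Dp ℓ)
  rw [bandT, ENNReal.tsum_sigma', mHat, mul_assoc, ← ENNReal.tsum_mul_right,
    ← ENNReal.tsum_mul_left]
  refine ENNReal.tsum_le_tsum fun n₀ => ?_
  rw [ENNReal.tsum_prod', ← ENNReal.tsum_mul_right, ← ENNReal.tsum_mul_left]
  refine ENNReal.tsum_le_tsum fun u => ?_
  rw [ENNReal.tsum_prod']
  by_cases hu : cat u <+: c
  · rw [if_pos hu, post, ENNReal.div_mul_cancel (W_pos he c).ne' (W_ne_top c),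
      ← ENNReal.tsum_mul_left]
    refine ENNReal.tsum_le_tsum fun v => ?_
    by_cases hv : c <+: upA u v
    · rw [if_pos hv, annealed_upE, show p⁻¹ * (W μ (cat u) * W μ (cat v) * p * upG μ n₂ u z v) =
        p⁻¹ * p * (W μ (cat u) * W μ (cat v) * upG μ n₂ u z v) by ring,
        ENNReal.inv_mul_cancel hp (measure_ne_top _ _), one_mul]
      simp only [upG, nu]
      rw [← ENNReal.tsum_mul_left]
      refine ENNReal.tsum_le_tsum fun w => ?_
      split_ifs with h1 h2
      · exact le_rfl
      · refine absurd ?_ h2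
        have h := h1.1
        simp only [cpath, endPt_append] at h
        rw [← h, upA, endPt_append]
        abel
      · exact zero_le
      · simp
    · rw [if_neg hv, mul_zero, nonpos_iff_eq_zero, ENNReal.tsum_eq_zero]
      intro w
      refine if_neg fun h => hv ?_
      obtain ⟨-, -, h2, h3, -⟩ := h
      simp only [cpath] at h2 h3
      rw [List.take_append_of_le_length (by simp; omega)] at h3
      rw [List.prefix_iff_eq_take, upA]
      exact h3.symm
  · rw [if_neg hu, zero_mul, mul_zero, nonpos_iff_eq_zero, ENNReal.tsum_eq_zero]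
    intro v
    rw [ENNReal.tsum_eq_zero]
    intro w
    refine if_neg fun h => hu ?_
    obtain ⟨-, h1, -, h3, -⟩ := h
    simp only [cpath] at h1 h3
    rw [← h3]
    rw [List.prefix_iff_eq_take, List.take_take, min_eq_left h1,
      List.take_append_of_le_length (by simp), List.take_append_of_le_length le_rfl,
      List.take_length]

lemma cpath_inj {x y : Conf ℓ Ns n₁ n₂} (h : cpath x = cpath y) : x = y := by
  obtain ⟨a, u, v, w⟩ := x
  obtain ⟨b, u', v', w'⟩ := y
  simp only [cpath, ← cat_append] at h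
  obtain ⟨e, he⟩ := cat_inj _ _ h
  have hab : a = b := Subtype.ext (by omega)
  subst hab
  simp only [Fin.cast_eq_self, Function.comp_def] at he
  have hw : w = w' := funext fun i => by
    simpa using (congrFun he (Fin.natAdd (a.1 + n₁) i)).symm
  have hv : v = v' := funext fun i => by
    simpa using (congrFun he (Fin.castAdd n₂ (Fin.natAdd a.1 i))).symm
  have hu : u = u' := funext fun i => by
    simpa using (congrFun he (Fin.castAdd n₂ (Fin.castAdd n₁ i))).symm
  rw [hu, hv, hw]

open scoped Classical in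
/-- Configurations with too much accumulated posterior are rare. -/
lemma tsum_not_good_le (hp : annealed μ (Dp ℓ) ≠ 0) {Λ : ℝ≥0∞} (hΛ : Λ ≠ 0) (hΛt : Λ ≠ ⊤) :
    ∑' x : Conf ℓ Ns n₁ n₂, (if Λ < sLev μ ℓ Ns n₁ n₂ (lev ℓ (endPt (cpath x))) (cpath x)
        then cwt μ x else 0) ≤
      (annealed μ (Dp ℓ))⁻¹ * (Λ⁻¹ * ∑' z, ∫⁻ s, mSup μ ℓ Ns n₁ n₂ z s ∂annealed μ) := by
  classical
  set p := annealed μ (Dp ℓ)
  set S : ℤ → Walk d → ℝ≥0∞ :=
    fun L s => ∑' z, if lev ℓ z = L then mSup μ ℓ Ns n₁ n₂ z s else 0 with hS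
  let bl : (x : Conf ℓ Ns n₁ n₂) → Set (Walk d) := fun x =>
    blkEvent (Fin.append (Fin.append x.2.1 x.2.2.1) x.2.2.2)
  have hbl : ∀ x, annealed μ (bl x) = cwt μ x * p := by
    intro x
    rw [annealed_blkEvent, ← W_cat, W_cat_append, W_cat_append]
    rfl
  have hcyl : ∀ x, ∀ s ∈ bl x, pre s (cpath x).length = cpath x := by
    intro x s hs
    have h := hs.1
    rw [cat_append, cat_append] at h
    exact (mem_cyl_iff _ _).1 h
  let F : ℤ → Conf ℓ Ns n₁ n₂ → Set (Walk d) := fun L x =>
    if lev ℓ (endPt (cpath x)) = L ∧ Λ < sLev μ ℓ Ns n₁ n₂ L (cpath x) then bl x else ∅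
  have hF : ∀ L, ∑' x, annealed μ (F L x) ≤ Λ⁻¹ * ∫⁻ s, S L s ∂annealed μ := by
    intro L
    rw [← measure_iUnion]
    · have hSm : Measurable (S L) := by
        refine Measurable.tsum fun z => ?_
        split_ifs
        · exact measurable_mSup z
        · exact measurable_const
      refine (measure_mono (t := {s | Λ ≤ S L s}) (Set.iUnion_subset fun x => ?_)).trans
        ((meas_ge_le_lintegral_div hSm.aemeasurable hΛ hΛt).trans (le_of_eq
          (ENNReal.div_eq_inv_mul)))
      simp only [F]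
      split_ifs with h
      · intro s hs
        refine h.2.le.trans ?_
        simp only [sLev, hS]
        refine ENNReal.tsum_le_tsum fun z => ?_
        split_ifs with hz
        · refine iSup₂_le fun t ht => ?_
          have e : (cpath x).take t = pre s t := by
            conv_lhs => rw [← hcyl x s hs]
            exact take_pre s (Nat.le_of_lt_succ (Finset.mem_range.1 ht))
          rw [e]
          exact le_iSup (fun t => mHat μ ℓ Ns n₁ n₂ z (pre s t)) t
        · exact le_rfl
      · exact Set.empty_subset _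
    · intro x y hne
      simp only [F, Function.onFun]
      split_ifs with h h'
      · refine Set.disjoint_left.2 fun s hs hs' => hne (cpath_inj ?_)
        have h1 := blkEvent_regen _ hs
        have h2 := blkEvent_regen _ hs'
        rw [cat_append, cat_append] at h1 h2
        change RegenTime ℓ s (cpath x).length at h1
        change RegenTime ℓ s (cpath y).length at h2
        have e1 : lev ℓ (pos s (cpath x).length) = L := by
          rw [← endPt_pre, hcyl x s hs]; exact h.1
        have e2 : lev ℓ (pos s (cpath y).length) = L := by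
          rw [← endPt_pre, hcyl y s hs']; exact h'.1
        have hlen : (cpath x).length = (cpath y).length := by
          rcases lt_trichotomy (cpath x).length (cpath y).length with hl | hl | hl
          · have := h2.1 _ hl; omega
          · exact hl
          · have := h1.1 _ hl; omega
        rw [← hcyl x s hs, hlen, hcyl y s hs']
      all_goals simp
    · intro x
      simp only [F]
      split_ifs
      · exact measurableSet_blkEvent _
      · exact MeasurableSet.empty
  calc _ = ∑' x, p⁻¹ * ∑' L, annealed μ (F L x) := by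
        refine tsum_congr fun x => ?_
        rw [tsum_eq_single (lev ℓ (endPt (cpath x)))]
        · simp only [F, true_and]
          split_ifs
          · rw [hbl, mul_left_comm, ENNReal.inv_mul_cancel hp (measure_ne_top _ _), mul_one]
          · simp
        · intro L hL
          simp [F, Ne.symm hL]
    _ = p⁻¹ * ∑' L, ∑' x, annealed μ (F L x) := by
        rw [ENNReal.tsum_mul_left, ENNReal.tsum_comm]
    _ ≤ p⁻¹ * ∑' L, Λ⁻¹ * ∫⁻ s, S L s ∂annealed μ :=
        mul_le_mul' le_rfl (ENNReal.tsum_le_tsum hF)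
    _ = _ := by
        rw [ENNReal.tsum_mul_left]
        congr 2
        have hm : ∀ L z, AEMeasurable (fun s : Walk d =>
            if lev ℓ z = L then mSup μ ℓ Ns n₁ n₂ z s else 0) (annealed μ) := by
          intro L z
          split_ifs
          · exact (measurable_mSup z).aemeasurable
          · exact aemeasurable_const
        simp only [hS, lintegral_tsum (hm _)]
        rw [ENNReal.tsum_comm]
        refine tsum_congr fun z => ?_
        rw [tsum_eq_single (lev ℓ z)]
        · simp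
        · intro L hL
          simp [Ne.symm hL]

lemma bandT_ne_zero {R : ℕ} {Λ : ℝ≥0∞} {z : Fin d → ℤ} {c : List (Dir d)}
    (h : bandT μ ℓ Ns n₁ n₂ R Λ z c ≠ 0) :
    ∃ x : Conf ℓ Ns n₁ n₂, InBand μ R Λ z c x := by
  classical
  rw [bandT, ne_eq, ENNReal.tsum_eq_zero] at h
  push Not at h
  obtain ⟨x, hx⟩ := h
  by_contra hc
  push Not at hc
  exact hx (if_neg (hc x))

/-- The prefix of a kept configuration in its band comes within `R` below the top and stays there. -/
lemma band_prefix {R : ℕ} {Λ : ℝ≥0∞} {z : Fin d → ℤ} {c : List (Dir d)} {x : Conf ℓ Ns n₁ n₂}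
    (h : InBand μ R Λ z c x) :
    (∀ i ≤ c.length, Lt ℓ c i ≤ lev ℓ z) ∧ ∃ i ≤ c.length, lev ℓ z - R ≤ Lt ℓ c i := by
  obtain ⟨hz, h1, h2, h3, hR, -⟩ := h
  have htake : ∀ i ≤ c.length, Lt ℓ c i = Lt ℓ (cpath x) i := fun i hi => by
    rw [Lt, Lt, ← h3, List.take_take, min_eq_left hi]
  refine ⟨fun i hi => ?_, (cat x.2.1).length, h1, ?_⟩
  · rw [htake i hi]
    have e : cpath x = cat (Fin.append (Fin.append x.2.1 x.2.2.1) x.2.2.2) := by
      simp [cpath, cat_append]
    rw [e] at hz ⊢
    rw [← hz]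
    refine (cat_last _ i ?_).le
    rw [← e]
    simp [cpath]; omega
  · rw [htake _ h1, Lt, cpath, List.append_assoc, List.take_left, ← hz]
    simp only [cpath, endPt_append, map_add] at hR ⊢
    linarith

/-- The accumulated posterior of the kept prefixes of one trajectory is at most `Λ`. -/
lemma sum_iSup_le {R : ℕ} {Λ : ℝ≥0∞} (hp : annealed μ (Dp ℓ) ≠ 0) (he : IsElliptic μ) (L : ℤ)
    (s : Walk d) (F : Finset (Fin d → ℤ)) (hF : ∀ z ∈ F, lev ℓ z = L) :
    ∑ z ∈ F, (⨆ t, bandT μ ℓ Ns n₁ n₂ R Λ z (pre s t) / W μ (pre s t)) ≤ Λ := by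
  classical
  have hmono : ∀ z : Fin d → ℤ, Monotone fun T : ℕ =>
      ⨆ t ∈ Finset.range T, bandT μ ℓ Ns n₁ n₂ R Λ z (pre s t) / W μ (pre s t) :=
    fun z a b hab => iSup₂_le fun t ht => le_iSup₂
      (f := fun t (_ : t ∈ Finset.range b) => bandT μ ℓ Ns n₁ n₂ R Λ z (pre s t) / W μ (pre s t))
      t (Finset.range_mono hab ht)
  have e : ∀ z : Fin d → ℤ, (⨆ t, bandT μ ℓ Ns n₁ n₂ R Λ z (pre s t) / W μ (pre s t)) =
      ⨆ T : ℕ, ⨆ t ∈ Finset.range T, bandT μ ℓ Ns n₁ n₂ R Λ z (pre s t) / W μ (pre s t) := by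
    intro z
    refine le_antisymm (iSup_le fun t => le_iSup_of_le (t + 1) (le_iSup₂_of_le t (by simp) le_rfl))
      (iSup_le fun T => iSup₂_le fun t _ => le_iSup
        (fun t => bandT μ ℓ Ns n₁ n₂ R Λ z (pre s t) / W μ (pre s t)) t)
  simp only [e]
  rw [ENNReal.finsetSum_iSup_of_monotone hmono]
  refine iSup_le fun T => ?_
  set G := (Finset.range T).filter fun t => ∃ z ∈ F, bandT μ ℓ Ns n₁ n₂ R Λ z (pre s t) ≠ 0
  rcases G.eq_empty_or_nonempty with hG | hG
  · refine le_of_eq_of_le (Finset.sum_eq_zero fun z hz => ?_) zero_le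
    simp only [ENNReal.iSup_eq_zero]
    intro t ht
    by_contra hne
    have : t ∈ G := Finset.mem_filter.2 ⟨ht, z, hz, fun h0 => hne (by simp [h0])⟩
    simp [hG] at this
  · obtain ⟨z₀, hz₀, h0⟩ := (Finset.mem_filter.1 (G.max'_mem hG)).2
    obtain ⟨x, hx⟩ := bandT_ne_zero h0
    obtain ⟨hz, -, hlt, htk, -, hgood⟩ := hx
    rw [hz, hF z₀ hz₀] at hgood
    rw [length_pre] at hlt htk
    refine le_trans ?_ hgood
    rw [sLev]
    refine le_trans (Finset.sum_le_sum fun z hzF => ?_) (ENNReal.sum_le_tsum F)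
    rw [if_pos (hF z hzF)]
    refine iSup₂_le fun t ht => ?_
    rcases eq_or_ne (bandT μ ℓ Ns n₁ n₂ R Λ z (pre s t)) 0 with hc | hc
    · simp [hc]
    have htG : t ≤ G.max' hG := Finset.le_max' _ _ (Finset.mem_filter.2 ⟨ht, z, hzF, hc⟩)
    refine le_iSup₂_of_le t (Finset.mem_range.2 (by simp [cpath]; omega)) ?_
    have e2 : (cpath x).take t = pre s t := by
      rw [← take_pre s htG, ← htk, List.take_take, min_eq_left htG]
    rw [e2]
    exact ENNReal.div_le_of_le_mul (bandT_le hp he R Λ z _)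

end Vale.Agent.P147.Law
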