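import Vale.Agent.P147.Law.Band

/-!
The weight of the first meetings inside a band.
-/

noncomputable section

namespace Vale.Agent.P147.Law

open MeasureTheory ProbabilityTheory
open scoped ENNReal

variable {d : ℕ} {μ : Measure (Row d)} {ℓ : Fin d → ℤ} {n₁ n₂ : ℕ} {Ns : Finset ℕ}
variable [IsProbabilityMeasure μ]

open scoped Classical in
/-- One environment: the kept first meetings of the top `z`. -/
lemma quenched_band_le (ω : Env d) (R : ℕ) (Λ η : ℝ≥0∞) (he : IsElliptic μ)
    (hp : annealed μ (Dp ℓ) ≠ 0) (z : Fin d → ℤ) :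
    ∑' c, bandT μ ℓ Ns n₁ n₂ R Λ z c / W μ c *
        (qw ω 0 c * quenched (tau z ω) (HitEv ℓ c z)) ≤
      ∫⁻ s, (⨆ t, if η ≤ quenched (tau (pos s t) ω) (Stay ℓ (lev ℓ z) (pos s t))
          then bandT μ ℓ Ns n₁ n₂ R Λ z (pre s t) / W μ (pre s t) else 0) ∂quenched ω +
        η * ∫⁻ s, mSup μ ℓ Ns n₁ n₂ z s ∂quenched ω := by
  classical
  set M : List (Dir d) → ℝ≥0∞ := fun c => bandT μ ℓ Ns n₁ n₂ R Λ z c / W μ c
  set P2 := (quenched ω).prod (quenched (tau z ω))
  let box : List (Dir d) → Set (Walk d × Walk d) := fun c => cyl c ×ˢ HitEv ℓ c z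
  have hbox : ∀ c, MeasurableSet (box c) := fun c =>
    (measurableSet_cyl c).prod (measurableSet_hitEv ℓ c z)
  have huniq : ∀ (p : Walk d × Walk d) c c', p ∈ box c → p ∈ box c' → c = c' := by
    rintro ⟨s, r⟩ c c' ⟨hs, hr⟩ ⟨hs', hr'⟩
    dsimp only at hs hr hs' hr'
    wlog hle : c.length ≤ c'.length generalizing c c'
    · exact (this c' c hs' hr' hs hr (le_of_not_ge hle)).symm
    rcases hle.lt_or_eq with hlt | heq
    · exfalso
      obtain ⟨i, hi⟩ := hr.2
      refine hr'.1.2 i ?_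
      show z + pos r i ∈ srcs 0 c'
      rw [hi, mem_srcs]
      refine ⟨c.length, hlt, ?_⟩
      rw [zero_add, ← (mem_cyl_iff _ _).1 hs', take_pre s hle, (mem_cyl_iff _ _).1 hs]
    · rw [← (mem_cyl_iff _ _).1 hs, heq, (mem_cyl_iff _ _).1 hs']
  set Bad : Set (Walk d) := {r | (∃ i, quenched (tau (z + pos r i) ω)
      (Stay ℓ (lev ℓ z) (z + pos r i)) < η) ∧ ∀ i, shift i r ∈ Stay ℓ (lev ℓ z) (z + pos r i)}
  have hBad : MeasurableSet Bad := by
    have e : Bad = (⋃ i, (fun r : Walk d => pos r i) ⁻¹'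
          {x | quenched (tau (z + x) ω) (Stay ℓ (lev ℓ z) (z + x)) < η}) ∩
        ⋂ i, ⋃ x, (fun r : Walk d => pos r i) ⁻¹' {x} ∩ shift i ⁻¹' Stay ℓ (lev ℓ z) (z + x) := by
      ext r; simp [Bad]
    rw [e]
    exact (MeasurableSet.iUnion fun i => measurable_pos i (Set.to_countable _).measurableSet).inter
      (MeasurableSet.iInter fun i => MeasurableSet.iUnion fun x =>
        (measurable_pos i (measurableSet_singleton x)).inter
          (measurable_shift _ (measurableSet_stay _ _ _)))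
  set G : Walk d → ℝ≥0∞ := fun s =>
    ⨆ t, if η ≤ quenched (tau (pos s t) ω) (Stay ℓ (lev ℓ z) (pos s t)) then M (pre s t) else 0
  have hG : Measurable G := by
    refine Measurable.iSup fun t => ?_
    have e : (fun s : Walk d => if η ≤ quenched (tau (pos s t) ω) (Stay ℓ (lev ℓ z) (pos s t))
        then M (pre s t) else 0) = (fun l : List (Dir d) =>
          if η ≤ quenched (tau (endPt l) ω) (Stay ℓ (lev ℓ z) (endPt l)) then M l else 0) ∘
        fun s => pre s t := by
      funext s; simp [endPt_pre]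
    rw [e]
    exact (@measurable_from_top (List (Dir d)) ℝ≥0∞ _ _).comp (measurable_pre t)
  have hpt : ∀ p : Walk d × Walk d, ∑' c, (box c).indicator (fun _ => M c) p ≤
      G p.1 + mSup μ ℓ Ns n₁ n₂ z p.1 * Bad.indicator 1 p.2 := by
    rintro ⟨s, r⟩
    by_cases h : ∃ c, (s, r) ∈ box c
    · obtain ⟨c, hc⟩ := h
      rw [tsum_eq_single c fun c' hc' =>
        Set.indicator_of_notMem (fun h' => hc' (huniq _ _ _ h' hc)) _, Set.indicator_of_mem hc]
      obtain ⟨hs, hr⟩ := hc
      dsimp only at hs hr ⊢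
      have hcs : pre s c.length = c := (mem_cyl_iff _ _).1 hs
      have hpos : pos s c.length = endPt c := by rw [← endPt_pre, hcs]
      by_cases hv : η ≤ quenched (tau (endPt c) ω) (Stay ℓ (lev ℓ z) (endPt c))
      · refine le_add_right (le_iSup_of_le c.length ?_)
        rw [if_pos (hpos ▸ hv), hcs]
      · refine le_add_left ?_
        obtain ⟨i, hi⟩ := hr.2
        have hb : r ∈ Bad := by
          refine ⟨⟨i, by rw [hi]; exact not_le.1 hv⟩, fun k => ⟨?_, fun j => ?_⟩⟩
          · exact (shift_mem_Ap_iff r k).2 hr.1.1.2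
          · rw [add_assoc, ← pos_add, map_add]
            have h1 := hr.1.1.1 (k + j)
            rw [lev_neg_left] at h1
            linarith
        rw [Set.indicator_of_mem hb, Pi.one_apply, mul_one]
        refine le_trans ?_ (le_iSup _ c.length)
        rw [hcs]
        exact ENNReal.div_le_of_le_mul (bandT_le hp he R Λ z c)
    · push Not at h
      simp [fun c => Set.indicator_of_notMem (h c) (fun _ => M c)]
  calc ∑' c, M c * (qw ω 0 c * quenched (tau z ω) (HitEv ℓ c z))
      = ∫⁻ p, ∑' c, (box c).indicator (fun _ => M c) p ∂P2 := by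
        rw [lintegral_tsum fun c => (measurable_const.indicator (hbox c)).aemeasurable]
        refine tsum_congr fun c => ?_
        rw [lintegral_indicator_const (hbox c), Measure.prod_prod, quenched_cyl]
    _ ≤ ∫⁻ p, (G p.1 + mSup μ ℓ Ns n₁ n₂ z p.1 * Bad.indicator 1 p.2) ∂P2 := lintegral_mono hpt
    _ = ∫⁻ s, G s ∂quenched ω +
          (∫⁻ s, mSup μ ℓ Ns n₁ n₂ z s ∂quenched ω) * quenched (tau z ω) Bad := by
        rw [lintegral_add_left (show Measurable fun p : Walk d × Walk d => G p.1 from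
          hG.comp measurable_fst), lintegral_prod_mul
          (measurable_mSup z).aemeasurable (measurable_one.indicator hBad).aemeasurable,
          lintegral_indicator_one hBad]
        congr 1
        rw [lintegral_prod (fun p : Walk d × Walk d => G p.1)
          (hG.comp measurable_fst).aemeasurable]
        simp
    _ ≤ _ := by
        refine add_le_add le_rfl ?_
        rw [mul_comm]
        exact mul_le_mul' (hit_bad_le ω z η _ fun x => measurableSet_stay ℓ _ x) le_rfl

open scoped Classical in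
/-- One environment and one level: the good part forces a turn. -/
lemma quenched_good_le (ω : Env d) (R : ℕ) (Λ : ℝ≥0∞) {η : ℝ≥0∞} (hη : η ≠ 0) (hηt : η ≠ ⊤)
    (he : IsElliptic μ) (hp : annealed μ (Dp ℓ) ≠ 0) (L : ℤ) :
    ∑' z, (if lev ℓ z = L then
      ∫⁻ s, (⨆ t, if η ≤ quenched (tau (pos s t) ω) (Stay ℓ (lev ℓ z) (pos s t))
          then bandT μ ℓ Ns n₁ n₂ R Λ z (pre s t) / W μ (pre s t) else 0) ∂quenched ω else 0) ≤
      Λ * η⁻¹ * quenched ω (Turn ℓ R L) := by
  classical
  set C : List (Dir d) → Prop := fun c =>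
    (∀ i ≤ c.length, Lt ℓ c i ≤ L) ∧ ∃ i ≤ c.length, L - R ≤ Lt ℓ c i
  set T : Set (Walk d) := {s | ∃ t, C (pre s t) ∧
    η ≤ quenched (tau (0 + pos s t) ω) (Stay ℓ L (0 + pos s t))}
  set G : (Fin d → ℤ) → Walk d → ℝ≥0∞ := fun z s => if lev ℓ z = L then
    ⨆ t, (if η ≤ quenched (tau (pos s t) ω) (Stay ℓ (lev ℓ z) (pos s t))
      then bandT μ ℓ Ns n₁ n₂ R Λ z (pre s t) / W μ (pre s t) else 0) else 0
  have hGm : ∀ z, Measurable (G z) := by
    intro z
    simp only [G]
    split_ifs
    · refine Measurable.iSup fun t => ?_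
      have e : (fun s : Walk d => if η ≤ quenched (tau (pos s t) ω) (Stay ℓ (lev ℓ z) (pos s t))
          then bandT μ ℓ Ns n₁ n₂ R Λ z (pre s t) / W μ (pre s t) else 0) =
          (fun l : List (Dir d) =>
            if η ≤ quenched (tau (endPt l) ω) (Stay ℓ (lev ℓ z) (endPt l))
            then bandT μ ℓ Ns n₁ n₂ R Λ z l / W μ l else 0) ∘ fun s => pre s t := by
        funext s; simp [endPt_pre]
      rw [e]
      exact (@measurable_from_top (List (Dir d)) ℝ≥0∞ _ _).comp (measurable_pre t)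
    · exact measurable_const
  calc ∑' z, (if lev ℓ z = L then
      ∫⁻ s, (⨆ t, if η ≤ quenched (tau (pos s t) ω) (Stay ℓ (lev ℓ z) (pos s t))
          then bandT μ ℓ Ns n₁ n₂ R Λ z (pre s t) / W μ (pre s t) else 0) ∂quenched ω else 0)
      = ∑' z, ∫⁻ s, G z s ∂quenched ω := tsum_congr fun z => by
        simp only [G]; split_ifs <;> simp
    _ = ∫⁻ s, ∑' z, G z s ∂quenched ω := (lintegral_tsum fun z => (hGm z).aemeasurable).symm
    _ ≤ ∫⁻ s, T.indicator (fun _ => Λ) s ∂quenched ω := by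
        refine lintegral_mono fun s => ?_
        by_cases hs : s ∈ T
        · rw [Set.indicator_of_mem hs, ENNReal.tsum_eq_iSup_sum]
          refine iSup_le fun F => ?_
          refine le_trans ?_ (sum_iSup_le (μ := μ) (n₁ := n₁) (n₂ := n₂) (Ns := Ns) (R := R)
            hp he L s (F.filter fun z => lev ℓ z = L) (fun z hz => (Finset.mem_filter.1 hz).2))
          rw [Finset.sum_filter]
          refine Finset.sum_le_sum fun z _ => ?_
          simp only [G]
          split_ifs
          · refine iSup_mono fun t => ?_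
            split_ifs <;> simp
          · exact le_rfl
        · rw [Set.indicator_of_notMem hs]
          refine le_of_eq (ENNReal.tsum_eq_zero.2 fun z => ?_)
          simp only [G]
          split_ifs with hz
          · rw [ENNReal.iSup_eq_zero]
            intro t
            split_ifs with hv
            · by_contra hne
              have h0 : bandT μ ℓ Ns n₁ n₂ R Λ z (pre s t) ≠ 0 := fun h0 => hne (by simp [h0])
              obtain ⟨x, hx⟩ := bandT_ne_zero h0
              have hb := band_prefix hx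
              rw [hz] at hb hv
              exact hs ⟨t, hb, by simpa using hv⟩
            · rfl
          · rfl
    _ ≤ Λ * quenched ω T := lintegral_indicator_const_le _ _
    _ ≤ _ := by
        rw [mul_assoc]
        refine mul_le_mul' le_rfl ?_
        have h := hit_good_le ω 0 η (Stay ℓ L) (fun x => measurableSet_stay ℓ L x) C
        rw [tau_zero'] at h
        have h2 : η * quenched ω T ≤ quenched ω (Turn ℓ R L) := by
          refine h.trans (measure_mono ?_)
          rintro s ⟨t, hC, hS⟩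
          rw [zero_add] at hS
          refine ⟨⟨(shift_mem_Ap_iff s t).1 hS.1, fun j => ?_⟩, ?_⟩
          · rw [zero_add]
            rcases le_or_gt j t with hj | hj
            · have := hC.1 j (by simpa using hj)
              rwa [Lt_pre s hj] at this
            · obtain ⟨k, rfl⟩ := Nat.exists_eq_add_of_le hj.le
              rw [pos_add]
              exact hS.2 k
          · obtain ⟨i, hi, hi'⟩ := hC.2
            rw [length_pre] at hi
            rw [Lt_pre s hi] at hi'
            exact ⟨i, hi'⟩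
        calc quenched ω T = η⁻¹ * (η * quenched ω T) := by
              rw [← mul_assoc, ENNReal.inv_mul_cancel hη hηt, one_mul]
          _ ≤ _ := mul_le_mul' le_rfl h2
where tau_zero' : tau (0 : Fin d → ℤ) ω = ω := by funext z; simp [tau]

/-- The turning events of different levels overlap boundedly. -/
lemma tsum_turn_le (R : ℕ) : ∑' L : ℤ, annealed μ (Turn ℓ R L) ≤ ((2 * R + 1 : ℕ) : ℝ≥0∞) := by
  classical
  have e : ∀ L, annealed μ (Turn ℓ R L) = ∫⁻ s, (Turn ℓ R L).indicator 1 s ∂annealed μ :=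
    fun L => (lintegral_indicator_one (measurableSet_turn ℓ R L)).symm
  simp only [e]
  rw [← lintegral_tsum fun L => (measurable_one.indicator (measurableSet_turn ℓ R L)).aemeasurable]
  refine (lintegral_mono (g := fun _ => ((2 * R + 1 : ℕ) : ℝ≥0∞)) fun s => ?_).trans (by simp)
  by_cases h : ∃ L, s ∈ Turn ℓ R L
  · obtain ⟨L₀, hs, j₀, hj₀⟩ := h
    rw [tsum_eq_sum (s := Finset.Icc (L₀ - R) (L₀ + R)) fun L hL => Set.indicator_of_notMem
      (fun hL' => hL ?_) _]
    · refine (Finset.sum_le_card_nsmul _ _ 1 fun L _ => ?_).trans ?_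
      · rw [Set.indicator_apply]; split_ifs <;> simp
      · rw [Int.card_Icc, nsmul_eq_mul, mul_one]
        exact Nat.cast_le.2 (by omega)
    · obtain ⟨hs', j, hj⟩ := hL'
      have h1 := hs.2 j
      have h2 := hs'.2 j₀
      rw [zero_add] at h1 h2
      exact Finset.mem_Icc.2 ⟨by omega, by omega⟩
  · push Not at h
    simp [fun L => Set.indicator_of_notMem (h L) (1 : Walk d → ℝ≥0∞)]

open scoped Classical in
/-- The kept first meetings, integrated over the environment. -/
lemma kept_le (he : IsElliptic μ) (hp : annealed μ (Dp ℓ) ≠ 0) (R : ℕ) (Λ : ℝ≥0∞) {η : ℝ≥0∞}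
    (hη : η ≠ 0) (hηt : η ≠ ⊤) :
    ∑' z, ∑' c, bandT μ ℓ Ns n₁ n₂ R Λ z c * annealed μ (HitEv ℓ c z) ≤
      η * (∑' z, ∫⁻ s, mSup μ ℓ Ns n₁ n₂ z s ∂annealed μ) +
        Λ * η⁻¹ * ((2 * R + 1 : ℕ) : ℝ≥0∞) := by
  classical
  set M : (Fin d → ℤ) → List (Dir d) → ℝ≥0∞ := fun z c => bandT μ ℓ Ns n₁ n₂ R Λ z c / W μ c
  have hQm : ∀ (z : Fin d → ℤ) c, Measurable fun ω : Env d => quenched (tau z ω) (HitEv ℓ c z) :=
    fun z c => (measurable_quenched_apply (measurableSet_hitEv ℓ c z)).comp (measurable_tau z)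
  have hfm : ∀ (z : Fin d → ℤ) c, Measurable fun ω : Env d =>
      M z c * (qw ω 0 c * quenched (tau z ω) (HitEv ℓ c z)) := fun z c =>
    ((measurable_qw 0 c).fun_mul (hQm z c)).const_mul _
  have hterm : ∀ z c, bandT μ ℓ Ns n₁ n₂ R Λ z c * annealed μ (HitEv ℓ c z) =
      ∫⁻ ω, M z c * (qw ω 0 c * quenched (tau z ω) (HitEv ℓ c z)) ∂envLaw μ := by
    intro z c
    rw [lintegral_const_mul _ ((measurable_qw 0 c).fun_mul (hQm z c))]
    rw [lintegral_mul_of_disjoint {x | x ∈ srcs 0 c} (measurable_qw 0 c) (hQm z c)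
      (fun ω η h => qw_congr h) fun ω η h =>
      quenched_eq_of_eq_off (S := {x | z + x ∈ srcs 0 c}) (fun x hx => h _ hx)
        (measurableSet_hitEv ℓ c z) fun r hr => hr.1.2]
    have e : ∫⁻ ω, quenched (tau z ω) (HitEv ℓ c z) ∂envLaw μ = annealed μ (HitEv ℓ c z) := by
      rw [annealed_apply (measurableSet_hitEv ℓ c z)]
      conv_rhs => rw [← envLaw_map_tau (μ := μ) z]
      rw [lintegral_map (f := fun ω => quenched ω (HitEv ℓ c z))
        (measurable_quenched_apply (measurableSet_hitEv ℓ c z)) (measurable_tau _)]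
    rw [e, ← mul_assoc, show ∫⁻ ω, qw ω 0 c ∂envLaw μ = W μ c from rfl,
      ENNReal.div_mul_cancel (W_pos he c).ne' (W_ne_top c)]
  simp only [hterm]
  simp only [← lintegral_tsum fun c => (hfm _ c).aemeasurable]
  rw [← lintegral_tsum fun z => (Measurable.tsum (hfm z)).aemeasurable]
  have hmS : ∀ z, Measurable fun ω : Env d => ∫⁻ s, mSup μ ℓ Ns n₁ n₂ z s ∂quenched ω :=
    fun z => (Measure.measurable_lintegral (measurable_mSup z)).comp measurable_quenched
  calc _ ≤ ∫⁻ ω, (η * (∑' z, ∫⁻ s, mSup μ ℓ Ns n₁ n₂ z s ∂quenched ω) +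
          Λ * η⁻¹ * ∑' L : ℤ, quenched ω (Turn ℓ R L)) ∂envLaw μ := by
        refine lintegral_mono fun ω => ?_
        refine (ENNReal.tsum_le_tsum fun z => quenched_band_le ω R Λ η he hp z).trans ?_
        rw [ENNReal.tsum_add, ENNReal.tsum_mul_left, add_comm]
        refine add_le_add le_rfl ?_
        rw [← ENNReal.tsum_mul_left]
        refine le_trans (le_of_eq ?_)
          (ENNReal.tsum_le_tsum fun L => quenched_good_le (n₁ := n₁) (n₂ := n₂) (Ns := Ns)
            ω R Λ hη hηt he hp L)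
        rw [ENNReal.tsum_comm]
        refine tsum_congr fun z => ?_
        rw [tsum_eq_single (lev ℓ z)]
        · rw [if_pos rfl]
        · intro L hL
          rw [if_neg (Ne.symm hL)]
    _ = ∫⁻ ω, η * (∑' z, ∫⁻ s, mSup μ ℓ Ns n₁ n₂ z s ∂quenched ω) ∂envLaw μ +
          Λ * η⁻¹ * ∑' L : ℤ, annealed μ (Turn ℓ R L) := by
        rw [lintegral_add_left ((Measurable.tsum hmS).const_mul _),
          lintegral_const_mul _ (Measurable.tsum fun L : ℤ =>
            measurable_quenched_apply (measurableSet_turn ℓ R L)),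
          lintegral_tsum fun L : ℤ =>
            (measurable_quenched_apply (measurableSet_turn ℓ R L)).aemeasurable]
        simp only [← annealed_apply (measurableSet_turn ℓ R _)]
    _ ≤ _ := by
        refine add_le_add (le_of_eq ?_) (mul_le_mul' le_rfl (tsum_turn_le R))
        rw [lintegral_const_mul _ (Measurable.tsum hmS),
          lintegral_tsum fun z => (hmS z).aemeasurable]
        congr 1
        refine tsum_congr fun z => ?_
        rw [annealed, Measure.lintegral_bind measurable_quenched.aemeasurable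
          (measurable_mSup z).aemeasurable]

open scoped Classical in
/-- **Turn lemma.** The first meetings inside a band, summed over the heights in `Ns`. -/
theorem bandW_sum_le (he : IsElliptic μ) (hp : annealed μ (Dp ℓ) ≠ 0) (Ns : Finset ℕ) (n₁ n₂ R : ℕ)
    {Λ η : ℝ≥0∞} (hΛ : Λ ≠ 0) (hΛt : Λ ≠ ⊤) (hη : η ≠ 0) (hηt : η ≠ ⊤) :
    ∑ n₀ ∈ Ns, bandW μ ℓ n₀ n₁ n₂ ≤ Ns.card * capW μ ℓ (n₁ + n₂) R +
      (η + (annealed μ (Dp ℓ))⁻¹ * Λ⁻¹) *
        (Ns.card * ((annealed μ (Dp ℓ))⁻¹ * (6 + 8 * info μ ℓ n₁ n₂))) +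
      Λ * η⁻¹ * ((2 * R + 1 : ℕ) : ℝ≥0∞) := by
  classical
  set p := annealed μ (Dp ℓ)
  set cap : Conf ℓ Ns n₁ n₂ → ℝ≥0∞ := fun x =>
    if (R : ℤ) < lev ℓ (endPt (cat x.2.2.1)) + lev ℓ (endPt (cat x.2.2.2)) then cwt μ x else 0
  set bad : Conf ℓ Ns n₁ n₂ → ℝ≥0∞ := fun x =>
    if Λ < sLev μ ℓ Ns n₁ n₂ (lev ℓ (endPt (cpath x))) (cpath x) then cwt μ x else 0
  set kp : Conf ℓ Ns n₁ n₂ → ℝ≥0∞ := fun x => ∑' z, ∑' c,
    (if InBand μ R Λ z c x then cwt μ x else 0) * annealed μ (HitEv ℓ c z)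
  have hx : ∀ x : Conf ℓ Ns n₁ n₂, cwt μ x * annealed μ (FirstHitIn ℓ (cpath x)
      (cat x.2.1).length ((cat x.2.1).length + (cat x.2.2.1).length)) ≤ cap x + bad x + kp x := by
    intro x
    by_cases h1 : (R : ℤ) < lev ℓ (endPt (cat x.2.2.1)) + lev ℓ (endPt (cat x.2.2.2))
    · refine le_add_right (le_add_right ?_)
      simp only [cap, if_pos h1]
      exact mul_le_of_le_one_right' prob_le_one
    by_cases h2 : Λ < sLev μ ℓ Ns n₁ n₂ (lev ℓ (endPt (cpath x))) (cpath x)
    · refine le_add_right (le_add_left ?_)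
      simp only [bad, if_pos h2]
      exact mul_le_of_le_one_right' prob_le_one
    refine le_add_left ?_
    simp only [kp]
    refine le_trans ?_ (ENNReal.le_tsum (endPt (cpath x)))
    set I := Finset.Ico (cat x.2.1).length ((cat x.2.1).length + (cat x.2.2.1).length)
    refine (mul_le_mul' le_rfl (measure_biUnion_finset_le I _)).trans ?_
    rw [Finset.mul_sum]
    have hinj : Set.InjOn (fun τ => (cpath x).take τ) I := by
      intro a ha b hb hab
      simp only [I, Finset.coe_Ico, Set.mem_Ico] at ha hb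
      have := congrArg List.length hab
      simp only [List.length_take, cpath, List.length_append] at this
      omega
    refine le_trans (le_of_eq ?_) (ENNReal.sum_le_tsum (I.image fun τ => (cpath x).take τ))
    rw [Finset.sum_image hinj]
    refine Finset.sum_congr rfl fun τ hτ => ?_
    have hl : ((cpath x).take τ).length = τ := by
      have := (Finset.mem_Ico.1 hτ).2
      simp [cpath]; omega
    rw [if_pos]
    exact ⟨rfl, by rw [hl]; exact (Finset.mem_Ico.1 hτ).1, by rw [hl]; exact (Finset.mem_Ico.1 hτ).2,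
      by rw [hl], not_lt.1 h1, not_lt.1 h2⟩
  have hcap : ∑' x, cap x = Ns.card * capW μ ℓ (n₁ + n₂) R := by
    rw [ENNReal.tsum_sigma', tsum_fintype]
    have : ∀ n₀ : Ns, ∑' y : (Fin n₀.1 → Blk ℓ) × (Fin n₁ → Blk ℓ) × (Fin n₂ → Blk ℓ),
        cap ⟨n₀, y⟩ = capW μ ℓ (n₁ + n₂) R := by
      intro n₀
      rw [ENNReal.tsum_prod']
      have e : ∀ u : Fin n₀.1 → Blk ℓ, ∑' y : (Fin n₁ → Blk ℓ) × (Fin n₂ → Blk ℓ),
          cap ⟨n₀, (u, y)⟩ = W μ (cat u) * capW μ ℓ (n₁ + n₂) R := by
        intro u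
        rw [capW, tsum_split, ENNReal.tsum_prod', ← ENNReal.tsum_mul_left]
        refine tsum_congr fun v => ?_
        rw [← ENNReal.tsum_mul_left]
        refine tsum_congr fun w => ?_
        simp only [cap, cwt, cat_append, endPt_append, map_add]
        split_ifs
        · rw [← cat_append, W_cat_append, mul_assoc]
        · rw [mul_zero]
      rw [tsum_congr e, ENNReal.tsum_mul_right, tsum_W_cat hp, one_mul]
    simp only [this, Finset.sum_const, Finset.card_univ, Fintype.card_coe, nsmul_eq_mul]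
  have hkp : ∑' x, kp x = ∑' z, ∑' c,
      bandT μ ℓ Ns n₁ n₂ R Λ z c * annealed μ (HitEv ℓ c z) := by
    simp only [kp]
    rw [ENNReal.tsum_comm]
    refine tsum_congr fun z => ?_
    rw [ENNReal.tsum_comm]
    exact tsum_congr fun c => by rw [bandT, ENNReal.tsum_mul_right]
  have hsum : ∑ n₀ ∈ Ns, bandW μ ℓ n₀ n₁ n₂ = ∑' x : Conf ℓ Ns n₁ n₂, cwt μ x *
      annealed μ (FirstHitIn ℓ (cpath x) (cat x.2.1).length
        ((cat x.2.1).length + (cat x.2.2.1).length)) := by
    rw [ENNReal.tsum_sigma', tsum_fintype, ← Finset.sum_coe_sort Ns]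
    refine Finset.sum_congr rfl fun n₀ _ => ?_
    rw [bandW, ENNReal.tsum_prod']
    refine tsum_congr fun u => ?_
    rw [ENNReal.tsum_prod']
    rfl
  rw [hsum]
  refine (ENNReal.tsum_le_tsum hx).trans ?_
  rw [ENNReal.tsum_add, ENNReal.tsum_add, hcap, hkp]
  have hES := tsum_mSup_le (μ := μ) (ℓ := ℓ) (n₁ := n₁) (n₂ := n₂) (Ns := Ns) he hp
  refine (add_le_add (add_le_add le_rfl (tsum_not_good_le hp hΛ hΛt))
    (kept_le he hp R Λ hη hηt)).trans ?_
  rw [← mul_assoc]
  calc _ ≤ Ns.card * capW μ ℓ (n₁ + n₂) R + p⁻¹ * Λ⁻¹ *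
        (Ns.card * (p⁻¹ * (6 + 8 * info μ ℓ n₁ n₂))) +
        (η * (Ns.card * (p⁻¹ * (6 + 8 * info μ ℓ n₁ n₂))) +
          Λ * η⁻¹ * ((2 * R + 1 : ℕ) : ℝ≥0∞)) :=
        add_le_add (add_le_add le_rfl (mul_le_mul' le_rfl hES))
          (add_le_add (mul_le_mul' le_rfl hES) le_rfl)
    _ = _ := by ring

end Vale.Agent.P147.Law
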