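import Vale.Agent.P147.Main

/-!
Shared definitions for the directional zero-one law: the law of the displacement of `k` blocks and
the positive part of its information.
-/

noncomputable section

namespace Vale.Agent.P147.Law

open MeasureTheory ProbabilityTheory
open scoped ENNReal

variable {d : ℕ} {μ : Measure (Row d)} {ℓ : Fin d → ℤ}

/-- The weight of `k` blocks whose displacement is `y`. -/
def nu (μ : Measure (Row d)) (ℓ : Fin d → ℤ) (k : ℕ) (y : Fin d → ℤ) : ℝ≥0∞ :=
  ∑' v : Fin k → Blk ℓ, if endPt (cat v) = y then W μ (cat v) else 0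

/-- Nonnegative logarithm of the ratio of two weights. -/
def lpos (a b : ℝ≥0∞) : ℝ≥0∞ := ENNReal.ofReal (Real.log (a.toReal / b.toReal))

/-- Information on the last `a` blocks carried by the sum of `k + a` blocks (positive part). -/
def info (μ : Measure (Row d)) (ℓ : Fin d → ℤ) (k a : ℕ) : ℝ≥0∞ :=
  ∑' y, ∑' x, nu μ ℓ k y * nu μ ℓ a x * lpos (nu μ ℓ a x) (nu μ ℓ (k + a) (y + x))

lemma cat_append {a b : ℕ} (u : Fin a → Blk ℓ) (v : Fin b → Blk ℓ) :
    cat (Fin.append u v) = cat u ++ cat v := by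
  simp only [cat, ← List.flatten_append, ← List.ofFn_fin_append]
  congr 2
  funext i
  refine Fin.addCases (fun j => ?_) (fun j => ?_) i <;> simp

/-- Summing over blocks through their displacement. -/
lemma tsum_nu_mul (k : ℕ) (F : (Fin d → ℤ) → ℝ≥0∞) :
    ∑' v : Fin k → Blk ℓ, W μ (cat v) * F (endPt (cat v)) = ∑' y, nu μ ℓ k y * F y := by
  simp only [nu, ← ENNReal.tsum_mul_right]
  rw [ENNReal.tsum_comm]
  refine tsum_congr fun v => ?_
  rw [tsum_eq_single (endPt (cat v))]
  · simp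
  · intro y hy
    simp [Ne.symm hy]

variable [IsProbabilityMeasure μ]

lemma tsum_W_cat (hp : annealed μ (Dp ℓ) ≠ 0) (k : ℕ) :
    ∑' v : Fin k → Blk ℓ, W μ (cat v) = 1 := by
  rw [← seqLaw_head_mem_one (blkPMF μ hp) k]
  exact tsum_congr fun v => W_cat v

lemma W_cat_append {a b : ℕ} (u : Fin a → Blk ℓ) (v : Fin b → Blk ℓ) :
    W μ (cat (Fin.append u v)) = W μ (cat u) * W μ (cat v) := by
  rw [W_cat, W_cat, W_cat, Fin.prod_univ_add]
  simp

/-- Splitting a sum over `a + b` blocks. -/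
lemma tsum_split {a b : ℕ} (F : (Fin (a + b) → Blk ℓ) → ℝ≥0∞) :
    ∑' w, F w = ∑' u : Fin a → Blk ℓ, ∑' v : Fin b → Blk ℓ, F (Fin.append u v) := by
  rw [← (Fin.appendEquiv (α := Blk ℓ) a b).tsum_eq]
  exact ENNReal.tsum_prod'

end Vale.Agent.P147.Law
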