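import Mathlib

/-!
Entropy of the partial sums of an i.i.d. sequence.
-/

noncomputable section

namespace Vale.Agent.P147

open MeasureTheory
open scoped ENNReal

set_option linter.unusedSectionVars false

/-- `-t log t`. -/
def nml (t : ℝ≥0∞) : ℝ≥0∞ := ENNReal.ofReal (Real.negMulLog t.toReal)

/-- `f log⁺ (f / q)`. -/
def lp (f q : ℝ≥0∞) : ℝ≥0∞ := f * ENNReal.ofReal (Real.log (f.toReal / q.toReal))

/-- `-log q`. -/
def nlog (q : ℝ≥0∞) : ℝ≥0∞ := ENNReal.ofReal (-Real.log q.toReal)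

lemma nlog_mul_self {t : ℝ≥0∞} (ht : t ≤ 1) : t * nlog t = nml t := by
  conv_lhs => rw [← ENNReal.ofReal_toReal (ne_top_of_le_ne_top ENNReal.one_ne_top ht)]
  rw [nlog, ENNReal.toReal_ofReal ENNReal.toReal_nonneg, ← ENNReal.ofReal_mul ENNReal.toReal_nonneg,
    nml, Real.negMulLog]
  congr 1; ring

lemma mul_log_sub_le {a b : ℝ} (ha : 0 ≤ a) (hb : 0 < b) :
    a * (Real.log b - Real.log a) ≤ b - a := by
  rcases ha.eq_or_lt with rfl | ha
  · simpa using hb.le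
  rw [← Real.log_div hb.ne' ha.ne']
  calc a * Real.log (b / a) ≤ a * (b / a - 1) :=
        mul_le_mul_of_nonneg_left (Real.log_le_sub_one_of_pos (div_pos hb ha)) ha.le
    _ = b - a := by field_simp

lemma nml_add_le {f q : ℝ≥0∞} (hf : f ≤ 1) (hq : q ≤ 1) (hq0 : q ≠ 0) :
    nml f + f ≤ f * nlog q + q := by
  have hft := ne_top_of_le_ne_top ENNReal.one_ne_top hf
  have hqt := ne_top_of_le_ne_top ENNReal.one_ne_top hq
  obtain ⟨a, ha, rfl⟩ : ∃ a, 0 ≤ a ∧ f = ENNReal.ofReal a :=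
    ⟨_, ENNReal.toReal_nonneg, (ENNReal.ofReal_toReal hft).symm⟩
  obtain ⟨b, hb, rfl⟩ : ∃ b, 0 ≤ b ∧ q = ENNReal.ofReal b :=
    ⟨_, ENNReal.toReal_nonneg, (ENNReal.ofReal_toReal hqt).symm⟩
  have hb0 : 0 < b := ENNReal.ofReal_pos.1 (pos_iff_ne_zero.2 hq0)
  have ha1 : a ≤ 1 := ENNReal.ofReal_le_one.1 hf
  have hl : Real.log b ≤ 0 := Real.log_nonpos hb (ENNReal.ofReal_le_one.1 hq)
  rw [nml, nlog, ENNReal.toReal_ofReal ha, ENNReal.toReal_ofReal hb,
    ← ENNReal.ofReal_add (Real.negMulLog_nonneg ha ha1) ha, ← ENNReal.ofReal_mul ha,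
    ← ENNReal.ofReal_add (mul_nonneg ha (neg_nonneg.2 hl)) hb]
  refine ENNReal.ofReal_le_ofReal ?_
  have := mul_log_sub_le ha hb0
  rw [Real.negMulLog]; linarith

lemma lp_add_nml_le {f q : ℝ≥0∞} (hf : f ≤ 1) (hq : q ≤ 1) (hq0 : q ≠ 0) :
    lp f q + nml f ≤ f * nlog q + q := by
  have hft := ne_top_of_le_ne_top ENNReal.one_ne_top hf
  have hqt := ne_top_of_le_ne_top ENNReal.one_ne_top hq
  obtain ⟨a, ha, rfl⟩ : ∃ a, 0 ≤ a ∧ f = ENNReal.ofReal a :=
    ⟨_, ENNReal.toReal_nonneg, (ENNReal.ofReal_toReal hft).symm⟩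
  obtain ⟨b, hb, rfl⟩ : ∃ b, 0 ≤ b ∧ q = ENNReal.ofReal b :=
    ⟨_, ENNReal.toReal_nonneg, (ENNReal.ofReal_toReal hqt).symm⟩
  have hb0 : 0 < b := ENNReal.ofReal_pos.1 (pos_iff_ne_zero.2 hq0)
  rcases ha.eq_or_lt with rfl | ha0
  · simp [lp, nml]
  have ha1 : a ≤ 1 := ENNReal.ofReal_le_one.1 hf
  by_cases h : Real.log (a / b) ≤ 0
  · rw [lp, ENNReal.toReal_ofReal ha, ENNReal.toReal_ofReal hb, ENNReal.ofReal_of_nonpos h,
      mul_zero, zero_add]
    exact le_self_add.trans (nml_add_le hf hq hq0)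
  rw [not_le] at h
  refine le_trans (le_of_eq ?_) le_self_add
  rw [lp, nml, nlog, ENNReal.toReal_ofReal ha, ENNReal.toReal_ofReal hb, ← ENNReal.ofReal_mul ha,
    ← ENNReal.ofReal_mul ha, ← ENNReal.ofReal_add (mul_nonneg ha h.le)
      (Real.negMulLog_nonneg ha ha1)]
  congr 1
  rw [Real.negMulLog, Real.log_div ha0.ne' hb0.ne']; ring

section sums

variable {α : Type*} {G : Type*} [AddCommGroup G]

/-- The law of the sum of `k` independent terms. -/
def nuS (p : PMF α) (φ : α → G) (k : ℕ) (x : G) : ℝ≥0∞ :=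
  ∑' g : Fin k → α, ({g | ∑ i, φ (g i) = x} : Set (Fin k → α)).indicator (fun g => ∏ i, p (g i)) g

/-- Its entropy. -/
def entS (p : PMF α) (φ : α → G) (k : ℕ) : ℝ≥0∞ := ∑' x, nml (nuS p φ k x)

lemma tsum_prod_eq_one (p : PMF α) : ∀ k, ∑' g : Fin k → α, ∏ i, p (g i) = 1
  | 0 => by rw [tsum_eq_single default fun g hg => absurd (Subsingleton.elim g _) hg]; simp
  | k + 1 => by
    rw [← (Fin.consEquiv fun _ : Fin (k + 1) => α).tsum_eq, ENNReal.tsum_prod']
    have : ∀ a (g : Fin k → α),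
        ∏ i, p ((Fin.consEquiv fun _ : Fin (k + 1) => α) (a, g) i) = p a * ∏ i, p (g i) :=
      fun a g => by simp [Fin.consEquiv, Fin.prod_univ_succ]
    simp only [this, ENNReal.tsum_mul_left, tsum_prod_eq_one p k, mul_one, p.tsum_coe]

/-- Summing against the law of the sum. -/
lemma tsum_nuS_mul (p : PMF α) (φ : α → G) (k : ℕ) (F : G → ℝ≥0∞) :
    ∑' x, nuS p φ k x * F x = ∑' g : Fin k → α, (∏ i, p (g i)) * F (∑ i, φ (g i)) := by
  simp only [nuS, ← ENNReal.tsum_mul_right]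
  rw [ENNReal.tsum_comm]
  refine tsum_congr fun g => ?_
  rw [tsum_eq_single (∑ i, φ (g i))]
  · simp
  · intro x hx; simp [Ne.symm hx]

lemma tsum_nuS (p : PMF α) (φ : α → G) (k : ℕ) : ∑' x, nuS p φ k x = 1 := by
  simpa [tsum_prod_eq_one] using tsum_nuS_mul p φ k fun _ => 1

lemma nuS_le_one (p : PMF α) (φ : α → G) (k : ℕ) (x : G) : nuS p φ k x ≤ 1 :=
  (ENNReal.le_tsum x).trans (tsum_nuS p φ k).le

lemma nuS_ne_top (p : PMF α) (φ : α → G) (k : ℕ) (x : G) : nuS p φ k x ≠ ⊤ :=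
  ne_top_of_le_ne_top ENNReal.one_ne_top (nuS_le_one p φ k x)

/-- Splitting off the first `m` terms. -/
lemma nuS_add (p : PMF α) (φ : α → G) (m a : ℕ) (z : G) :
    nuS p φ (m + a) z = ∑' g : Fin m → α, (∏ i, p (g i)) * nuS p φ a (z - ∑ i, φ (g i)) := by
  classical
  simp only [nuS, ← ENNReal.tsum_mul_left]
  rw [← (Fin.appendEquiv m a).tsum_eq, ENNReal.tsum_prod']
  refine tsum_congr fun g => tsum_congr fun h => ?_
  simp only [Fin.appendEquiv, Equiv.coe_fn_mk, Set.indicator_apply, Set.mem_ofPred_eq,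
    Fin.sum_univ_add, Fin.prod_univ_add, Fin.append_left, Fin.append_right, mul_ite, mul_zero,
    eq_sub_iff_add_eq']

lemma tsum_sub (F : G → ℝ≥0∞) (x : G) : ∑' z, F (z - x) = ∑' z, F z :=
  (Equiv.subRight x).tsum_eq F

lemma eq_zero_or_nuS_ne_zero (p : PMF α) (φ : α → G) {m a : ℕ} {z : G}
    (hz : nuS p φ (m + a) z = 0) (g : Fin m → α) :
    (∏ i, p (g i)) = 0 ∨ nuS p φ a (z - ∑ i, φ (g i)) = 0 :=
  mul_eq_zero.1 (ENNReal.tsum_eq_zero.1 (nuS_add p φ m a z ▸ hz) g)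

/-- Mutual information bound: the mean of `f log⁺ (f / q)` is at most the entropy gap plus one. -/
theorem entropy_gap (p : PMF α) (φ : α → G) (m a : ℕ) :
    (∑' z, ∑' g : Fin m → α, (∏ i, p (g i)) *
      lp (nuS p φ a (z - ∑ i, φ (g i))) (nuS p φ (m + a) z)) + entS p φ a ≤
      entS p φ (m + a) + 1 := by
  have hH : entS p φ a =
      ∑' z, ∑' g : Fin m → α, (∏ i, p (g i)) * nml (nuS p φ a (z - ∑ i, φ (g i))) := by
    rw [ENNReal.tsum_comm]
    simp only [ENNReal.tsum_mul_left, tsum_sub fun z => nml (nuS p φ a z)]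
    rw [ENNReal.tsum_mul_right, tsum_prod_eq_one, one_mul, entS]
  rw [hH, ← ENNReal.tsum_add, ← tsum_nuS p φ (m + a), entS, ← ENNReal.tsum_add]
  refine ENNReal.tsum_le_tsum fun z => ?_
  rw [← ENNReal.tsum_add]
  by_cases hz : nuS p φ (m + a) z = 0
  · refine le_of_eq_of_le (ENNReal.tsum_eq_zero.2 fun g => ?_) zero_le
    rcases eq_zero_or_nuS_ne_zero p φ hz g with h | h <;> simp [h, lp, nml]
  calc ∑' g : Fin m → α, ((∏ i, p (g i)) * lp (nuS p φ a (z - ∑ i, φ (g i))) (nuS p φ (m + a) z) +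
        (∏ i, p (g i)) * nml (nuS p φ a (z - ∑ i, φ (g i))))
      ≤ ∑' g : Fin m → α, ((∏ i, p (g i)) * nuS p φ a (z - ∑ i, φ (g i)) *
          nlog (nuS p φ (m + a) z) + (∏ i, p (g i)) * nuS p φ (m + a) z) := by
        refine ENNReal.tsum_le_tsum fun g => ?_
        rw [← mul_add, mul_assoc, ← mul_add]
        exact mul_le_mul_right (lp_add_nml_le (nuS_le_one p φ _ _) (nuS_le_one p φ _ _) hz) _
    _ = nml (nuS p φ (m + a) z) + nuS p φ (m + a) z := by
        rw [ENNReal.tsum_add, ENNReal.tsum_mul_right, ENNReal.tsum_mul_right, ← nuS_add,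
          tsum_prod_eq_one, one_mul, nlog_mul_self (nuS_le_one p φ _ _)]

/-- The entropy is monotone. -/
theorem entS_mono (p : PMF α) (φ : α → G) {a b : ℕ} (h : a ≤ b) : entS p φ a ≤ entS p φ b := by
  obtain ⟨m, rfl⟩ : ∃ m, b = m + a := ⟨b - a, by omega⟩
  refine (ENNReal.add_le_add_iff_right ENNReal.one_ne_top).1 (le_of_eq_of_le (b :=
    ∑' z, ∑' g : Fin m → α, (∏ i, p (g i)) *
      (nml (nuS p φ a (z - ∑ i, φ (g i))) + nuS p φ a (z - ∑ i, φ (g i)))) ?_ ?_)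
  · rw [ENNReal.tsum_comm]
    simp only [ENNReal.tsum_mul_left, tsum_sub fun z => nml (nuS p φ a z) + nuS p φ a z]
    rw [ENNReal.tsum_mul_right, tsum_prod_eq_one, one_mul, ENNReal.tsum_add, tsum_nuS, entS]
  rw [← tsum_nuS p φ (m + a), entS, ← ENNReal.tsum_add]
  refine ENNReal.tsum_le_tsum fun z => ?_
  by_cases hz : nuS p φ (m + a) z = 0
  · refine le_of_eq_of_le (ENNReal.tsum_eq_zero.2 fun g => ?_) zero_le
    rcases eq_zero_or_nuS_ne_zero p φ hz g with h | h <;> simp [h, nml]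
  calc ∑' g : Fin m → α, (∏ i, p (g i)) *
        (nml (nuS p φ a (z - ∑ i, φ (g i))) + nuS p φ a (z - ∑ i, φ (g i)))
      ≤ ∑' g : Fin m → α, ((∏ i, p (g i)) * nuS p φ a (z - ∑ i, φ (g i)) *
          nlog (nuS p φ (m + a) z) + (∏ i, p (g i)) * nuS p φ (m + a) z) := by
        refine ENNReal.tsum_le_tsum fun g => ?_
        rw [mul_assoc, ← mul_add]
        exact mul_le_mul_right (nml_add_le (nuS_le_one p φ _ _) (nuS_le_one p φ _ _) hz) _
    _ = nml (nuS p φ (m + a) z) + nuS p φ (m + a) z := by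
        rw [ENNReal.tsum_add, ENNReal.tsum_mul_right, ENNReal.tsum_mul_right, ← nuS_add,
          tsum_prod_eq_one, one_mul, nlog_mul_self (nuS_le_one p φ _ _)]

lemma tsum_nuS_le_of_subadd (p : PMF α) (φ : α → G) (k : ℕ) (F : G → ℝ≥0∞) (hF0 : F 0 = 0)
    (hF : ∀ x y, F (x + y) ≤ F x + F y) :
    ∑' x, nuS p φ k x * F x ≤ k * ∑' a, p a * F (φ a) := by
  rw [tsum_nuS_mul]
  induction k with
  | zero => rw [tsum_eq_single default fun g hg => absurd (Subsingleton.elim g _) hg]; simp [hF0]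
  | succ k ih =>
    rw [← (Fin.consEquiv fun _ : Fin (k + 1) => α).tsum_eq, ENNReal.tsum_prod']
    calc ∑' a, ∑' g : Fin k → α, (∏ i, p ((Fin.consEquiv fun _ : Fin (k + 1) => α) (a, g) i)) *
          F (∑ i, φ ((Fin.consEquiv fun _ : Fin (k + 1) => α) (a, g) i))
        ≤ ∑' a, ∑' g : Fin k → α, (p a * F (φ a) * (∏ i, p (g i)) +
            p a * ((∏ i, p (g i)) * F (∑ i, φ (g i)))) := by
          refine ENNReal.tsum_le_tsum fun a => ENNReal.tsum_le_tsum fun g => ?_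
          simp only [Fin.consEquiv, Equiv.coe_fn_mk, Fin.prod_univ_succ, Fin.sum_univ_succ,
            Fin.cons_zero, Fin.cons_succ]
          refine (mul_le_mul_right (hF _ _) _).trans (le_of_eq ?_)
          ring
      _ ≤ ((k + 1 : ℕ) : ℝ≥0∞) * ∑' a, p a * F (φ a) := by
          simp only [ENNReal.tsum_add, ENNReal.tsum_mul_left, tsum_prod_eq_one, mul_one]
          rw [ENNReal.tsum_mul_right, p.tsum_coe, one_mul, Nat.cast_succ, add_mul, one_mul,
            add_comm ((k : ℝ≥0∞) * _)]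
          exact add_le_add le_rfl ih

/-- Gibbs' inequality. -/
theorem entS_le_cross (p : PMF α) (φ : α → G) (k : ℕ) (q : G → ℝ≥0∞) (hq : ∀ x, q x ≤ 1)
    (hq0 : ∀ x, q x ≠ 0) :
    entS p φ k ≤ (∑' x, nuS p φ k x * nlog (q x)) + ∑' x, q x := by
  rw [entS, ← ENNReal.tsum_add]
  exact ENNReal.tsum_le_tsum fun x =>
    le_self_add.trans (nml_add_le (nuS_le_one p φ k x) (hq x) (hq0 x))

end sums

section lattice

variable {α : Type*} {d : ℕ}

/-- A polynomial kernel on `ℤ^d`. -/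
def polyKer (x : Fin d → ℤ) : ℝ≥0∞ := ∏ j, ENNReal.ofReal ((1 + |(x j : ℝ)|) ^ 2)⁻¹

lemma tsum_polyKer_ne_top : ∑' x : Fin d → ℤ, polyKer x ≠ ⊤ := by
  have h1 : ∑' n : ℤ, ENNReal.ofReal ((1 + |(n : ℝ)|) ^ 2)⁻¹ ≠ ⊤ := by
    have hs : Summable fun n : ℕ => ((1 + (n : ℝ)) ^ 2)⁻¹ := by
      have := ((summable_nat_add_iff 1).2 (Real.summable_nat_pow_inv.2 one_lt_two))
      simpa [add_comm] using this
    have : Summable fun n : ℤ => ((1 + |(n : ℝ)|) ^ 2)⁻¹ :=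
      Summable.of_nat_of_neg (by simpa using hs) (by simpa using hs)
    exact this.tsum_ofReal_ne_top
  induction d with
  | zero =>
    rw [tsum_eq_single default fun g hg => absurd (Subsingleton.elim g _) hg]
    simp [polyKer]
  | succ d ih =>
    rw [← (Fin.consEquiv fun _ : Fin (d + 1) => ℤ).tsum_eq, ENNReal.tsum_prod']
    have : ∀ a (g : Fin d → ℤ), polyKer ((Fin.consEquiv fun _ : Fin (d + 1) => ℤ) (a, g)) =
        ENNReal.ofReal ((1 + |(a : ℝ)|) ^ 2)⁻¹ * polyKer g := fun a g => by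
      simp [polyKer, Fin.consEquiv, Fin.prod_univ_succ]
    simp only [this, ENNReal.tsum_mul_left, ENNReal.tsum_mul_right]
    exact ENNReal.mul_ne_top h1 ih

lemma polyKer_toReal (x : Fin d → ℤ) :
    (polyKer x).toReal = ∏ j, ((1 + |(x j : ℝ)|) ^ 2)⁻¹ := by
  rw [polyKer, ENNReal.toReal_prod]
  exact Finset.prod_congr rfl fun j _ => ENNReal.toReal_ofReal (by positivity)

lemma nlog_polyKer_le (x : Fin d → ℤ) {M : ℝ} (hM : 0 ≤ M) :
    nlog (polyKer x) ≤ ENNReal.ofReal (2 * d * Real.log (1 + M)) +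
      ENNReal.ofReal (2 / (1 + M)) * ∑ j, ((x j).natAbs : ℝ≥0∞) := by
  have hs : (∑ j, ((x j).natAbs : ℝ≥0∞)) = ENNReal.ofReal (∑ j, |(x j : ℝ)|) := by
    rw [ENNReal.ofReal_sum_of_nonneg fun j _ => abs_nonneg _]
    exact Finset.sum_congr rfl fun j _ => by
      rw [← ENNReal.ofReal_natCast, Nat.cast_natAbs]; push_cast; rfl
  rw [hs, nlog, polyKer_toReal, ← ENNReal.ofReal_mul (by positivity),
    ← ENNReal.ofReal_add (mul_nonneg (by positivity) (Real.log_nonneg (by linarith)))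
      (by positivity)]
  refine ENNReal.ofReal_le_ofReal ?_
  rw [Real.log_prod fun j _ => by positivity, Finset.mul_sum, ← Finset.sum_neg_distrib]
  simp only [Real.log_inv, Real.log_pow, neg_neg, Nat.cast_ofNat]
  calc ∑ j, 2 * Real.log (1 + |(x j : ℝ)|)
      ≤ ∑ j, (2 * Real.log (1 + M) + 2 / (1 + M) * |(x j : ℝ)|) := by
        refine Finset.sum_le_sum fun j _ => ?_
        have hy : 0 < 1 + |(x j : ℝ)| := by positivity
        have h := Real.log_le_sub_one_of_pos (div_pos hy (by linarith : 0 < 1 + M))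
        rw [Real.log_div hy.ne' (by linarith)] at h
        have e : (1 + |(x j : ℝ)|) / (1 + M) ≤ 1 + |(x j : ℝ)| / (1 + M) := by
          rw [add_div]; gcongr; exact (div_le_one (by linarith)).2 (by linarith)
        have e2 : 2 / (1 + M) * |(x j : ℝ)| = 2 * (|(x j : ℝ)| / (1 + M)) := by ring
        linarith
    _ = _ := by rw [Finset.sum_add_distrib]; simp; ring

/-- Finite mean gives logarithmic entropy. -/
theorem entS_le_log (p : PMF α) (φ : α → Fin d → ℤ)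
    (hφ : ∀ j, ∑' a, p a * ((φ a j).natAbs : ℝ≥0∞) ≠ ⊤) :
    ∃ C : ℝ≥0∞, C ≠ ⊤ ∧ ∀ J : ℕ, entS p φ (2 ^ J) ≤ C * (J + 1) := by
  classical
  set F : (Fin d → ℤ) → ℝ≥0∞ := fun x => ∑ j, ((x j).natAbs : ℝ≥0∞)
  set μ₁ := ∑' a, p a * F (φ a) with hμ
  have hμt : μ₁ ≠ ⊤ := by
    simp only [μ₁, F, Finset.mul_sum]
    rw [Summable.tsum_finsetSum fun _ _ => ENNReal.summable]
    exact ENNReal.sum_ne_top.2 fun j _ => hφ j
  refine ⟨ENNReal.ofReal (2 * d) + 2 * μ₁ + ∑' x : Fin d → ℤ, polyKer x,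
    by simp [hμt, tsum_polyKer_ne_top, ENNReal.mul_ne_top], fun J => ?_⟩
  set K := ∑' x : Fin d → ℤ, polyKer x
  set M : ℝ := 2 ^ J - 1 with hM
  have hM0 : 0 ≤ M := sub_nonneg.2 (one_le_pow₀ one_le_two)
  have hq0 : ∀ x : Fin d → ℤ, polyKer x ≠ 0 := fun x =>
    Finset.prod_ne_zero_iff.2 fun j _ => (ENNReal.ofReal_pos.2 (by positivity)).ne'
  have hq1 : ∀ x : Fin d → ℤ, polyKer x ≤ 1 := fun x =>
    Finset.prod_le_one' fun j _ =>
      ENNReal.ofReal_le_one.2 (inv_le_one_of_one_le₀ (one_le_pow₀ (by simp)))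
  refine (entS_le_cross p φ _ _ hq1 hq0).trans ?_
  have hF : ∑' x, nuS p φ (2 ^ J) x * F x ≤ (2 ^ J : ℕ) * μ₁ :=
    tsum_nuS_le_of_subadd p φ _ F (by simp [F]) fun x y => by
      simp only [F, ← Finset.sum_add_distrib]
      exact Finset.sum_le_sum fun j _ => by exact_mod_cast Int.natAbs_add_le _ _
  have h2 : ENNReal.ofReal (2 / (1 + M)) * ((2 ^ J : ℕ) : ℝ≥0∞) = 2 := by
    rw [← ENNReal.ofReal_natCast, ← ENNReal.ofReal_mul (by positivity), hM]
    push_cast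
    rw [show 2 / (1 + ((2 : ℝ) ^ J - 1)) * 2 ^ J = 2 by field_simp; ring]
    simp
  have h3 : 2 * d * Real.log (1 + M) ≤ 2 * d * J := by
    rw [hM, show (1 : ℝ) + (2 ^ J - 1) = 2 ^ J by ring, Real.log_pow]
    gcongr
    exact mul_le_of_le_one_right (Nat.cast_nonneg _)
      ((Real.log_le_sub_one_of_pos two_pos).trans (by norm_num))
  calc (∑' x, nuS p φ (2 ^ J) x * nlog (polyKer x)) + K
      ≤ (∑' x, (nuS p φ (2 ^ J) x * ENNReal.ofReal (2 * d * Real.log (1 + M)) +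
          ENNReal.ofReal (2 / (1 + M)) * (nuS p φ (2 ^ J) x * F x))) + K := by
        refine add_le_add (ENNReal.tsum_le_tsum fun x => ?_) le_rfl
        refine (mul_le_mul_right (nlog_polyKer_le x hM0) _).trans (le_of_eq ?_)
        rw [mul_add, mul_left_comm]
    _ ≤ ENNReal.ofReal (2 * d * J) + 2 * μ₁ + K := by
        rw [ENNReal.tsum_add, ENNReal.tsum_mul_right, ENNReal.tsum_mul_left, tsum_nuS, one_mul]
        refine add_le_add (add_le_add (ENNReal.ofReal_le_ofReal h3) ?_) le_rfl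
        refine (mul_le_mul_right hF _).trans (le_of_eq ?_)
        rw [← mul_assoc, h2]
    _ ≤ _ := by
        have hJ : ENNReal.ofReal (2 * d * J) = ENNReal.ofReal (2 * d) * J := by
          rw [ENNReal.ofReal_mul (by positivity), ENNReal.ofReal_natCast]
        rw [hJ, add_mul, add_mul]
        refine add_le_add (add_le_add (mul_le_mul_right le_self_add _) ?_) ?_ <;>
          exact le_mul_of_one_le_right' le_add_self

end lattice

end Vale.Agent.P147
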