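import Vale.Agent.P147.Law.Defs
import Vale.Agent.P147.Law.EntropyGen
import Vale.Agent.P147.Dir.LLN

/-!
The entropy of the displacement of `k` blocks grows logarithmically; consequences for the
information carried by the last blocks.
-/

noncomputable section

namespace Vale.Agent.P147.Law

open MeasureTheory ProbabilityTheory
open scoped ENNReal

set_option linter.unusedSectionVars false

variable {d : ℕ} {μ : Measure (Row d)} {ℓ : Fin d → ℤ} [IsProbabilityMeasure μ]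

/-- The displacement of a block. -/
def blkEnd (b : Blk ℓ) : Fin d → ℤ := endPt b.1

lemma nu_eq_nuS (hp : annealed μ (Dp ℓ) ≠ 0) (k : ℕ) (y : Fin d → ℤ) :
    nu μ ℓ k y = nuS (blkPMF μ hp) blkEnd k y := by
  classical
  simp only [nu, nuS, Set.indicator_apply, Set.mem_ofPred_eq, blkEnd, endPt_cat, W_cat,
    blkPMF_apply]

/-- The entropy of the displacement of `k` blocks. -/
def blkEnt (μ : Measure (Row d)) [IsProbabilityMeasure μ] (hp : annealed μ (Dp ℓ) ≠ 0) (k : ℕ) :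
    ℝ≥0∞ :=
  entS (blkPMF μ hp) blkEnd k

theorem tsum_nu (hp : annealed μ (Dp ℓ) ≠ 0) (k : ℕ) : ∑' y, nu μ ℓ k y = 1 := by
  simp only [nu_eq_nuS hp, tsum_nuS]

theorem nu_le_one (hp : annealed μ (Dp ℓ) ≠ 0) (k : ℕ) (y : Fin d → ℤ) : nu μ ℓ k y ≤ 1 :=
  nu_eq_nuS hp k y ▸ nuS_le_one _ _ _ _

theorem nu_ne_top (hp : annealed μ (Dp ℓ) ≠ 0) (k : ℕ) (y : Fin d → ℤ) : nu μ ℓ k y ≠ ⊤ :=
  ne_top_of_le_ne_top ENNReal.one_ne_top (nu_le_one hp k y)

theorem nu_add (k a : ℕ) (z : Fin d → ℤ) :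
    nu μ ℓ (k + a) z = ∑' y, nu μ ℓ k y * nu μ ℓ a (z - y) := by
  classical
  rw [← tsum_nu_mul k fun y => nu μ ℓ a (z - y), nu, tsum_split]
  refine tsum_congr fun u => ?_
  rw [nu, ← ENNReal.tsum_mul_left]
  refine tsum_congr fun v => ?_
  simp only [W_cat_append, endPt_cat, Fin.sum_univ_add, Fin.append_left, Fin.append_right,
    eq_sub_iff_add_eq', mul_ite, mul_zero]

/-- The information is the mean of `f log⁺ (f / q)`. -/
lemma info_eq (hp : annealed μ (Dp ℓ) ≠ 0) (k a : ℕ) :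
    info μ ℓ k a = ∑' z, ∑' g : Fin k → Blk ℓ, (∏ i, blkPMF μ hp (g i)) *
      lp (nuS (blkPMF μ hp) blkEnd a (z - ∑ i, blkEnd (g i)))
        (nuS (blkPMF μ hp) blkEnd (k + a) z) := by
  rw [ENNReal.tsum_comm]
  simp only [info, ENNReal.tsum_mul_left, mul_assoc, nu_eq_nuS hp]
  rw [tsum_nuS_mul]
  refine tsum_congr fun g => congrArg _ ?_
  rw [← tsum_sub (fun x => nuS (blkPMF μ hp) blkEnd a x *
    lpos (nuS (blkPMF μ hp) blkEnd a x) (nuS (blkPMF μ hp) blkEnd (k + a)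
      (∑ i, blkEnd (g i) + x))) (∑ i, blkEnd (g i))]
  simp only [add_sub_cancel, lp, lpos]

theorem info_add_blkEnt_le (hp : annealed μ (Dp ℓ) ≠ 0) (k a : ℕ) :
    info μ ℓ k a + blkEnt μ hp a ≤ blkEnt μ hp (k + a) + 1 :=
  info_eq hp k a ▸ entropy_gap _ _ k a

theorem blkEnt_mono (hp : annealed μ (Dp ℓ) ≠ 0) {a b : ℕ} (h : a ≤ b) :
    blkEnt μ hp a ≤ blkEnt μ hp b :=
  entS_mono _ _ h

theorem blkEnt_le_log (he : IsElliptic μ) (hp : annealed μ (Dp ℓ) ≠ 0) :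
    ∃ c : ℝ≥0∞, c ≠ ⊤ ∧ ∀ J : ℕ, blkEnt μ hp (2 ^ J) ≤ c * (J + 1) :=
  entS_le_log _ _ fun j => ne_top_of_le_ne_top (mean_ext_crd he hp j) (ENNReal.tsum_le_tsum fun b =>
    mul_le_mul_right (Nat.cast_le.2 (by
      have h := abs_psi_le_ext (ψ := crd j) b (le_refl b.1.length)
      rw [List.take_length, Int.abs_eq_natAbs, crd_apply] at h
      exact_mod_cast h)) _)

theorem blkEnt_ne_top (he : IsElliptic μ) (hp : annealed μ (Dp ℓ) ≠ 0) (k : ℕ) :
    blkEnt μ hp k ≠ ⊤ := by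
  obtain ⟨c, hc, h⟩ := blkEnt_le_log he hp
  exact ne_top_of_le_ne_top (ENNReal.mul_ne_top hc (by simp))
    ((blkEnt_mono hp Nat.lt_two_pow_self.le).trans (h k))

theorem info_one_le (he : IsElliptic μ) (hp : annealed μ (Dp ℓ) ≠ 0) :
    ∃ c : ℝ≥0∞, c ≠ ⊤ ∧ info μ ℓ 1 0 ≤ c :=
  ⟨_, ENNReal.add_ne_top.2 ⟨blkEnt_ne_top he hp (1 + 0), ENNReal.one_ne_top⟩,
    le_self_add.trans (info_add_blkEnt_le hp 1 0)⟩

theorem info_dyadic (he : IsElliptic μ) (hp : annealed μ (Dp ℓ) ≠ 0) :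
    ∃ c : ℝ≥0∞, c ≠ ⊤ ∧
      ∀ J0 : ℕ, ∑ i ∈ Finset.range J0, info μ ℓ (2 ^ i) (2 ^ i) ≤ c * (J0 + 1) := by
  obtain ⟨c, hc, h⟩ := blkEnt_le_log he hp
  refine ⟨c + 1, ENNReal.add_ne_top.2 ⟨hc, ENNReal.one_ne_top⟩, fun J0 => ?_⟩
  have key : ∑ i ∈ Finset.range J0, info μ ℓ (2 ^ i) (2 ^ i) + blkEnt μ hp 1 ≤
      blkEnt μ hp (2 ^ J0) + J0 := by
    induction J0 with
    | zero => simp
    | succ J ih =>
      rw [Finset.sum_range_succ, add_right_comm]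
      refine (add_le_add ih le_rfl).trans ?_
      rw [add_right_comm, add_comm (blkEnt μ hp (2 ^ J))]
      refine (add_le_add (info_add_blkEnt_le hp _ _) le_rfl).trans (le_of_eq ?_)
      rw [show 2 ^ J + 2 ^ J = 2 ^ (J + 1) by ring, Nat.cast_succ, add_assoc,
        add_comm (1 : ℝ≥0∞)]
  refine (le_self_add.trans key).trans ?_
  rw [add_mul, one_mul]
  exact add_le_add (h J0) le_self_add

theorem info_low (he : IsElliptic μ) (hp : annealed μ (Dp ℓ) ≠ 0) :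
    ∃ c : ℝ≥0∞, c ≠ ⊤ ∧ ∀ K J0 : ℕ, ∑ J ∈ Finset.range J0,
      (⨆ n ∈ Finset.Ioc (2 ^ J) (2 ^ (J + 1)), info μ ℓ (n - 2 ^ (J - K)) (2 ^ (J - K))) ≤
        c * (K + 1) * (J0 + 1) := by
  obtain ⟨c, hc, h⟩ := blkEnt_le_log he hp
  refine ⟨c + 1, ENNReal.add_ne_top.2 ⟨hc, ENNReal.one_ne_top⟩, fun K J0 => ?_⟩
  set g : ℕ → ℝ≥0∞ := fun i => blkEnt μ hp (2 ^ i)
  have gmono : ∀ i j, i ≤ j → g i ≤ g j := fun i j hij =>
    blkEnt_mono hp (Nat.pow_le_pow_right two_pos hij)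
  have hg : ∀ i, g i ≠ ⊤ := fun i => blkEnt_ne_top he hp _
  set G := ∑ J ∈ Finset.range J0, g (J - K)
  have shift : ∀ j, ∑ J ∈ Finset.range J0, g (J + 1 - j) ≤
      ∑ J ∈ Finset.range J0, g (J - j) + g J0 := by
    intro j
    calc ∑ J ∈ Finset.range J0, g (J + 1 - j) ≤
          ∑ J ∈ Finset.range J0, g (J + 1 - j) + g (0 - j) := le_self_add
      _ = ∑ J ∈ Finset.range J0, g (J - j) + g (J0 - j) := by
          rw [← Finset.sum_range_succ' (fun J => g (J - j)), Finset.sum_range_succ]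
      _ ≤ _ := add_le_add le_rfl (gmono _ _ (Nat.sub_le _ _))
  have tele : ∀ j, ∑ J ∈ Finset.range J0, g (J + 1) ≤
      ∑ J ∈ Finset.range J0, g (J - j) + ((j + 1 : ℕ) : ℝ≥0∞) * g J0 := by
    intro j
    induction j with
    | zero => simpa using shift 0
    | succ j ih =>
      refine ih.trans ?_
      have e : ∑ J ∈ Finset.range J0, g (J - j) = ∑ J ∈ Finset.range J0, g (J + 1 - (j + 1)) :=
        Finset.sum_congr rfl fun J _ => by rw [Nat.add_sub_add_right]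
      rw [e]
      refine (add_le_add (shift (j + 1)) le_rfl).trans (le_of_eq ?_)
      push_cast; ring
  have step : ∀ J, (⨆ n ∈ Finset.Ioc (2 ^ J) (2 ^ (J + 1)),
      info μ ℓ (n - 2 ^ (J - K)) (2 ^ (J - K))) + g (J - K) ≤ g (J + 1) + 1 := by
    intro J
    rw [ENNReal.biSup_add' (p := fun n => n ∈ Finset.Ioc (2 ^ J) (2 ^ (J + 1))) ⟨2 ^ (J + 1), Finset.mem_Ioc.2
      ⟨Nat.pow_lt_pow_right one_lt_two J.lt_succ_self, le_rfl⟩⟩]
    refine iSup₂_le fun n hn => ?_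
    obtain ⟨h1, h2⟩ := Finset.mem_Ioc.1 hn
    have hle : 2 ^ (J - K) ≤ n :=
      (Nat.pow_le_pow_right two_pos (Nat.sub_le J K)).trans h1.le
    refine (info_add_blkEnt_le hp _ _).trans (add_le_add ?_ le_rfl)
    rw [Nat.sub_add_cancel hle]
    exact blkEnt_mono hp h2
  have hsum := Finset.sum_le_sum fun J (_ : J ∈ Finset.range J0) => step J
  rw [Finset.sum_add_distrib, Finset.sum_add_distrib, Finset.sum_const, Finset.card_range,
    nsmul_one] at hsum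
  have hGt : G ≠ ⊤ := ENNReal.sum_ne_top.2 fun J _ => hg _
  have h3 := hsum.trans (add_le_add (tele K) le_rfl)
  rw [add_assoc, add_comm _ G, ENNReal.add_le_add_iff_left hGt] at h3
  refine h3.trans ?_
  rw [mul_assoc, add_mul, one_mul]
  refine add_le_add ?_ (le_self_add.trans (le_mul_of_one_le_left' le_add_self))
  calc ((K + 1 : ℕ) : ℝ≥0∞) * g J0 ≤ ((K + 1 : ℕ) : ℝ≥0∞) * (c * (J0 + 1)) :=
        mul_le_mul_right (h J0) _
    _ = _ := by push_cast; ring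

end Vale.Agent.P147.Law
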