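import Vale.Agent.P147.Law.Defs
import Vale.Agent.P147.Law.Markov
import Vale.Agent.P147.Ergodic

/-!
A descent rarely meets the blocks lying deep below its start.
-/

noncomputable section

namespace Vale.Agent.P147.Law

open MeasureTheory ProbabilityTheory
open scoped ENNReal

variable {d : ℕ} {μ : Measure (Row d)} {ℓ : Fin d → ℤ}

/-- The product weight of a descent meeting the first `n₀` of `n₀ + m` blocks. -/
def lowW (μ : Measure (Row d)) (ℓ : Fin d → ℤ) (n₀ m : ℕ) : ℝ≥0∞ :=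
  ∑' u : Fin n₀ → Blk ℓ, ∑' v : Fin m → Blk ℓ, W μ (cat u) * W μ (cat v) *
    annealed μ (Dp (-ℓ) \
      Avoid {x | endPt (cat u) + endPt (cat v) + x ∈ srcs 0 (cat u)})

open scoped Classical in
/-- The weight of the displacements of `m` blocks that are atypical given `n₀ + m` blocks. -/
def tailW (μ : Measure (Row d)) (ℓ : Fin d → ℤ) (n₀ m : ℕ) (K : ℝ≥0∞) : ℝ≥0∞ :=
  ∑' x, ∑' y, nu μ ℓ n₀ x * nu μ ℓ m y *
    if K * nu μ ℓ (n₀ + m) (x + y) < nu μ ℓ m y then 1 else 0

/-- Escape upwards after having descended `m` levels. -/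
def Back (ℓ : Fin d → ℤ) (m : ℕ) : Set (Walk d) :=
  Ap ℓ ∩ {r | ∃ i, lev ℓ (pos r i) ≤ -(m : ℤ)}

lemma measurableSet_back (ℓ : Fin d → ℤ) (m : ℕ) : MeasurableSet (Back ℓ m) := by
  refine (measurableSet_Ap ℓ).inter ?_
  have : {r : Walk d | ∃ i, lev ℓ (pos r i) ≤ -(m : ℤ)} =
      ⋃ i, {r | lev ℓ (pos r i) ≤ -(m : ℤ)} := by ext; simp
  rw [this]
  exact MeasurableSet.iUnion fun i =>
    measurable_lev_pos ℓ i (Set.to_countable {z : ℤ | z ≤ -(m : ℤ)}).measurableSet

/-- The environments where staying above the starting level is unlikely. -/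
def smallD (μ : Measure (Row d)) (ℓ : Fin d → ℤ) (η : ℝ≥0∞) : ℝ≥0∞ :=
  envLaw μ {ω | quenched ω (Dp ℓ) < η}

lemma tau_zero (ω : Env d) : tau 0 ω = ω := by funext z; simp [tau]

lemma measurable_quenched_tau (x : Fin d → ℤ) {E : Set (Walk d)} (hE : MeasurableSet E) :
    Measurable fun ω : Env d => quenched (tau x ω) E :=
  (Measure.measurable_coe hE).comp (measurable_quenched.comp (measurable_tau x))

lemma le_lev_of_nu {k : ℕ} {y : Fin d → ℤ} (h : nu μ ℓ k y ≠ 0) : (k : ℤ) ≤ lev ℓ y := by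
  rw [nu, ne_eq, ENNReal.tsum_eq_zero] at h
  push Not at h
  obtain ⟨v, hv⟩ := h
  split_ifs at hv with h1
  · rw [← h1, endPt_cat, map_sum]
    calc (k : ℤ) = ∑ _i : Fin k, (1 : ℤ) := by simp
      _ ≤ _ := Finset.sum_le_sum fun i _ => (v i).2.lev_pos
  · exact absurd rfl hv

variable [IsProbabilityMeasure μ]

lemma lintegral_quenched_tau (x : Fin d → ℤ) {E : Set (Walk d)} (hE : MeasurableSet E) :
    ∫⁻ ω, quenched (tau x ω) E ∂envLaw μ = annealed μ E := by
  rw [annealed_apply hE]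
  conv_rhs => rw [← envLaw_map_tau (μ := μ) x]
  rw [lintegral_map (f := fun ω => quenched ω E)
    ((Measure.measurable_coe hE).comp measurable_quenched) (measurable_tau _)]

lemma lintegral_qw_translate (z : Fin d → ℤ) (l : List (Dir d)) :
    ∫⁻ ω, qw ω z l ∂envLaw μ = W μ l := by
  rw [← annealed_cyl, ← lintegral_quenched_tau z (measurableSet_cyl l)]
  simp only [quenched_cyl']

/-- Configurations whose top is a bad place for staying above. -/
def partD (μ : Measure (Row d)) {n₀ : ℕ} (η' : ℝ≥0∞) (u : Fin n₀ → Blk ℓ) : ℝ≥0∞ :=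
  ∫⁻ ω, qw ω 0 (cat u) *
    ({ω | quenched (tau (endPt (cat u)) ω) (Dp ℓ) < η'}).indicator 1 ω ∂envLaw μ

/-- Environments with a source of `u` from which escape upwards is unlikely. -/
def BadSrc {n₀ : ℕ} (η : ℝ≥0∞) (u : Fin n₀ → Blk ℓ) : Set (Env d) :=
  {ω | ∃ x ∈ srcs 0 (cat u), quenched (tau x ω) (Ap ℓ) < η}

/-- Configurations visiting a site from which escape upwards is unlikely. -/
def partQ (μ : Measure (Row d)) {n₀ : ℕ} (η : ℝ≥0∞) (u : Fin n₀ → Blk ℓ) : ℝ≥0∞ :=
  ∫⁻ ω, quenched ω (blkEvent u) * (BadSrc η u).indicator 1 ω ∂envLaw μ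

/-- Configurations with a descent from `z` turning back. -/
def partW (μ : Measure (Row d)) {n₀ : ℕ} (m : ℕ) (u : Fin n₀ → Blk ℓ) (z : Fin d → ℤ) : ℝ≥0∞ :=
  ∫⁻ ω, quenched ω (blkEvent u) * quenched (tau z ω) (Back ℓ m) ∂envLaw μ

omit [IsProbabilityMeasure μ] in
lemma measurable_qB {n₀ : ℕ} (u : Fin n₀ → Blk ℓ) :
    Measurable fun ω : Env d => quenched ω (blkEvent u) :=
  (Measure.measurable_coe (measurableSet_blkEvent u)).comp measurable_quenched

lemma measurableSet_badSrc {n₀ : ℕ} (η : ℝ≥0∞) (u : Fin n₀ → Blk ℓ) :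
    MeasurableSet (BadSrc η u) := by
  have : BadSrc η u =
      ⋃ x ∈ {x | x ∈ srcs 0 (cat u)}, {ω : Env d | quenched (tau x ω) (Ap ℓ) < η} := by
    ext; simp [BadSrc]
  rw [this]
  exact MeasurableSet.biUnion (Set.to_countable _) fun x _ =>
    measurableSet_lt (measurable_quenched_tau x (measurableSet_Ap ℓ)) measurable_const

/-- One configuration. -/
lemma hit_step {n₀ : ℕ} (m : ℕ) {η η' : ℝ≥0∞} (hη : η ≠ 0) (hηt : η ≠ ⊤) (hη' : η' ≠ 0)
    (hη't : η' ≠ ⊤) (u : Fin n₀ → Blk ℓ) (z : Fin d → ℤ)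
    (hz : lev ℓ (endPt (cat u)) + m ≤ lev ℓ z) :
    W μ (cat u) * annealed μ (Dp (-ℓ) \ Avoid {x | z + x ∈ srcs 0 (cat u)}) ≤
      partD μ η' u + η'⁻¹ * (partQ μ η u + η⁻¹ * partW μ m u z) := by
  classical
  set P : List (Dir d) → Prop := fun l => z + endPt l ∈ srcs 0 (cat u)
  set S : Set (List (Dir d)) := {l | l ∈ First P ∧ ∀ i ≤ l.length, Lt ℓ l i ≤ 0}
  have hS : ∀ s : Walk d, ∀ a b, pre s a ∈ S → pre s b ∈ S → a = b :=
    fun s a b ha hb => first_unique P s a b ha.1 hb.1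
  have h1 : annealed μ (Dp (-ℓ) \ Avoid {x | z + x ∈ srcs 0 (cat u)}) ≤ ∑' l : S, W μ l.1 := by
    refine (measure_mono (t := ⋃ l : S, cyl l.1) fun r hr => ?_).trans
      ((measure_iUnion_le _).trans (le_of_eq (by simp [annealed_cyl])))
    obtain ⟨i, hi⟩ : ∃ i, P (pre r i) := by
      have h := hr.2
      simp only [Avoid, Set.mem_ofPred_eq, not_forall, not_not] at h
      simpa [P, endPt_pre] using h
    obtain ⟨j, hj, -⟩ := exists_first P (s := r) ⟨i, hi⟩
    refine Set.mem_iUnion.2 ⟨⟨pre r j, hj, fun k hk => ?_⟩, by rw [mem_cyl_iff]; simp⟩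
    rw [length_pre] at hk
    rw [Lt_pre r hk]
    have := hr.1.1 k
    rw [lev_neg_left] at this
    linarith
  have h2 : ∀ l : S, W μ (cat u) * W μ l.1 = ∫⁻ ω, qw ω 0 (cat u) * qw ω z l.1 ∂envLaw μ := by
    intro l
    rw [lintegral_mul_of_disjoint {x | x ∈ srcs 0 (cat u)} (measurable_qw 0 _) (measurable_qw z _)
      (fun ω η h => qw_congr h) (fun ω η h => qw_congr fun x hx => h x ?_),
      lintegral_qw_translate z, W]
    intro hc
    obtain ⟨i, hi, rfl⟩ := mem_srcs.1 hx
    exact l.2.1.2 i hi hc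
  refine (mul_le_mul' le_rfl h1).trans ?_
  rw [← ENNReal.tsum_mul_left]
  simp only [h2]
  rw [← lintegral_tsum fun l : S =>
    ((measurable_qw 0 _).fun_mul (measurable_qw z l.1)).aemeasurable]
  simp only [partD, partQ, partW]
  rw [← lintegral_const_mul _ ((measurable_qB u).fun_mul (measurable_quenched_tau z (measurableSet_back ℓ m))),
    ← lintegral_add_left ((measurable_qB u).fun_mul (measurable_one.indicator (measurableSet_badSrc η u))),
    ← lintegral_const_mul' η'⁻¹ _ (ENNReal.inv_ne_top.2 hη'),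
    ← lintegral_add_left ((measurable_qw 0 _).fun_mul (measurable_one.indicator
      (measurableSet_lt (measurable_quenched_tau _ (measurableSet_Dp ℓ)) measurable_const)))]
  refine lintegral_mono fun ω => ?_
  rw [ENNReal.tsum_mul_left]
  set H := ∑' l : S, qw ω z l.1
  have hH : H ≤ 1 := tsum_qw_le hS ω z
  by_cases hG : quenched (tau (endPt (cat u)) ω) (Dp ℓ) < η'
  · rw [Set.indicator_of_mem (show ω ∈ {ω | quenched (tau (endPt (cat u)) ω) (Dp ℓ) < η'} from hG)]
    exact le_add_right (mul_le_mul' le_rfl hH)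
  refine le_add_left ?_
  have hq : qw ω 0 (cat u) ≤ η'⁻¹ * quenched ω (blkEvent u) := by
    have e : quenched ω (blkEvent u) = qw ω 0 (cat u) * quenched (tau (endPt (cat u)) ω) (Dp ℓ) :=
      quenched_markov ω _ (measurableSet_Dp ℓ)
    rw [e, ← mul_assoc, mul_comm η'⁻¹, mul_assoc]
    refine le_mul_of_one_le_right' ?_
    rw [← ENNReal.inv_mul_cancel hη' hη't]
    exact mul_le_mul' le_rfl (not_lt.1 hG)
  refine (mul_le_mul' hq le_rfl).trans ?_
  rw [mul_assoc]
  refine mul_le_mul' le_rfl ?_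
  by_cases hb : ω ∈ BadSrc η u
  · rw [Set.indicator_of_mem hb]
    exact le_add_right (mul_le_mul' le_rfl hH)
  refine le_add_left ?_
  rw [mul_left_comm]
  refine mul_le_mul' le_rfl ?_
  simp only [BadSrc, Set.mem_ofPred_eq, not_exists, not_and, not_lt] at hb
  calc H ≤ ∑' l : S, η⁻¹ * (qw ω z l.1 * quenched (tau (z + endPt l.1) ω) (Ap ℓ)) := by
        refine ENNReal.tsum_le_tsum fun l => ?_
        rw [mul_left_comm]
        refine le_mul_of_one_le_right' ?_
        rw [← ENNReal.inv_mul_cancel hη hηt]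
        exact mul_le_mul' le_rfl (hb _ l.2.1.1)
    _ = η⁻¹ * ∑' l : S, quenched (tau z ω) (cyl l.1 ∩ shift l.1.length ⁻¹' Ap ℓ) := by
        rw [ENNReal.tsum_mul_left]
        congr 1
        exact tsum_congr fun l => (quenched_markov' ω z l.1 (measurableSet_Ap ℓ)).symm
    _ ≤ η⁻¹ * quenched (tau z ω) (Back ℓ m) := by
        refine mul_le_mul' le_rfl ?_
        rw [← measure_iUnion (fun a b hab => (cyl_pairwise_disjoint hS hab).mono
            Set.inter_subset_left Set.inter_subset_left)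
          fun l => (measurableSet_cyl _).inter (measurable_shift _ (measurableSet_Ap ℓ))]
        refine measure_mono (Set.iUnion_subset fun l r hr => ?_)
        refine ⟨(shift_mem_Ap_iff r _).1 hr.2, l.1.length, ?_⟩
        rw [← endPt_pre, (mem_cyl_iff _ _).1 hr.1]
        obtain ⟨i, hi, he⟩ := mem_srcs.1 l.2.1.1
        have h3 := congrArg (lev ℓ) he
        rw [zero_add, map_add] at h3
        have h4 := cat_last u i hi
        simp only [Lt] at h4
        omega

lemma partD_eq {n₀ : ℕ} (η' : ℝ≥0∞) (u : Fin n₀ → Blk ℓ) :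
    partD μ η' u = W μ (cat u) * smallD μ ℓ η' := by
  set e := endPt (cat u)
  have hG : MeasurableSet {ω : Env d | quenched ω (Dp ℓ) < η'} :=
    measurableSet_lt ((Measure.measurable_coe (measurableSet_Dp ℓ)).comp measurable_quenched)
      measurable_const
  have hGe : MeasurableSet {ω : Env d | quenched (tau e ω) (Dp ℓ) < η'} := measurable_tau e hG
  have hm : envLaw μ {ω : Env d | quenched (tau e ω) (Dp ℓ) < η'} = smallD μ ℓ η' := by
    have h := Measure.map_apply (μ := envLaw μ) (measurable_tau e) hG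
    rw [envLaw_map_tau] at h
    exact h.symm
  rw [← hm, ← lintegral_indicator_one hGe, W, partD]
  refine lintegral_mul_of_disjoint {x | x ∈ srcs 0 (cat u)} (measurable_qw 0 _)
    (measurable_one.indicator hGe) (fun ω η h => qw_congr h) ?_
  intro ω η h
  have e : quenched (tau (endPt (cat u)) ω) (Dp ℓ) =
      quenched (tau (endPt (cat u)) η) (Dp ℓ) := by
    refine quenched_eq_of_eq_off (S := {x | endPt (cat u) + x ∈ srcs 0 (cat u)})
      (fun x hx => h _ hx) (measurableSet_Dp ℓ) fun s hs n hc => ?_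
    obtain ⟨i, hi, he⟩ := mem_srcs.1 hc
    have h3 := congrArg (lev ℓ) he
    rw [zero_add, map_add] at h3
    have h4 := cat_last u i hi
    have h5 := hs.1 n
    simp only [Lt] at h4
    omega
  simp [Set.indicator_apply, e]

lemma tsum_partQ_le (n₀ : ℕ) (η : ℝ≥0∞) :
    ∑' u : Fin n₀ → Blk ℓ, partQ μ η u ≤ η := by
  classical
  simp only [partQ]
  rw [← lintegral_tsum fun u =>
    ((measurable_qB u).fun_mul (measurable_one.indicator (measurableSet_badSrc η u))).aemeasurable]
  refine (lintegral_mono (g := fun _ => η) fun ω => ?_).trans (by simp)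
  let F : (Fin n₀ → Blk ℓ) → Set (Walk d) := fun u => if ω ∈ BadSrc η u then blkEvent u else ∅
  calc ∑' u, quenched ω (blkEvent u) * (BadSrc η u).indicator 1 ω = ∑' u, quenched ω (F u) :=
        tsum_congr fun u => by simp only [F, Set.indicator_apply]; split_ifs <;> simp
    _ = quenched ω (⋃ u, F u) := by
        refine (measure_iUnion (fun u v huv => ?_) fun u => ?_).symm
        · simp only [F, Function.onFun]
          split_ifs <;> simp [blkEvent_disjoint n₀ huv]
        · simp only [F]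
          split_ifs
          · exact measurableSet_blkEvent u
          · exact MeasurableSet.empty
    _ ≤ quenched (tau 0 ω) {r | (∃ i, quenched (tau (0 + pos r i) ω) (Ap ℓ) < η) ∧
          ∀ i, shift i r ∈ Ap ℓ} := by
        rw [tau_zero]
        refine measure_mono (Set.iUnion_subset fun u => ?_)
        simp only [F]
        split_ifs with hb
        · intro r hr
          obtain ⟨x, hx, hxq⟩ := hb
          obtain ⟨i, hi, rfl⟩ := mem_srcs.1 hx
          refine ⟨⟨i, ?_⟩, fun j => (shift_mem_Ap_iff r j).2 (blkEvent_subset_Dp u hr).2⟩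
          rwa [pos_of_mem_cyl hr.1 hi.le]
        · exact Set.empty_subset _
    _ ≤ η := hit_bad_le ω 0 η (fun _ => Ap ℓ) fun _ => measurableSet_Ap ℓ

/-- A descent rarely meets the blocks lying deep below its start. -/
theorem lowW_le (hp : annealed μ (Dp ℓ) ≠ 0) (n₀ m : ℕ) (K : ℝ≥0∞) {η η' : ℝ≥0∞}
    (hη : η ≠ 0) (hηt : η ≠ ⊤) (hη' : η' ≠ 0) (hη't : η' ≠ ⊤) :
    lowW μ ℓ n₀ m ≤ tailW μ ℓ n₀ m K + smallD μ ℓ η' +
      η'⁻¹ * (η + η⁻¹ * (K * annealed μ (Back ℓ m))) := by
  classical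
  set A1 : (Fin n₀ → Blk ℓ) → ℝ≥0∞ := fun u => partD μ η' u with hA1
  set A2 : (Fin n₀ → Blk ℓ) → ℝ≥0∞ := fun u => partQ μ η u with hA2
  set A3 : (Fin n₀ → Blk ℓ) → (Fin d → ℤ) → ℝ≥0∞ := fun u z => partW μ m u z with hA3
  have key := hit_step (μ := μ) (ℓ := ℓ) (n₀ := n₀) m hη hηt hη' hη't
  -- atypical displacements cost at most their weight
  set t : (Fin n₀ → Blk ℓ) → (Fin d → ℤ) → ℝ≥0∞ := fun u y =>
    if K * nu μ ℓ (n₀ + m) (endPt (cat u) + y) < nu μ ℓ m y then 1 else 0 with ht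
  set nd : (Fin n₀ → Blk ℓ) → (Fin d → ℤ) → ℝ≥0∞ := fun u y =>
    if K * nu μ ℓ (n₀ + m) (endPt (cat u) + y) < nu μ ℓ m y then 0
    else η'⁻¹ * (η⁻¹ * A3 u (endPt (cat u) + y)) with hnd
  have hstep : ∀ u, ∑' v : Fin m → Blk ℓ, W μ (cat u) * W μ (cat v) *
      annealed μ (Dp (-ℓ) \ Avoid {x | endPt (cat u) + endPt (cat v) + x ∈ srcs 0 (cat u)}) ≤
      ∑' y, nu μ ℓ m y * (W μ (cat u) * t u y + (A1 u + η'⁻¹ * A2 u + nd u y)) := by
    intro u
    rw [← tsum_nu_mul]
    refine ENNReal.tsum_le_tsum fun v => ?_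
    rw [mul_comm (W μ (cat u)), mul_assoc]
    refine mul_le_mul' le_rfl ?_
    simp only [ht, hnd]
    split_ifs with h
    · refine le_add_right ?_
      exact mul_le_mul' le_rfl prob_le_one
    · rw [mul_zero, zero_add]
      refine (key u _ ?_).trans (le_of_eq (by rw [mul_add, ← add_assoc]))
      rw [map_add]
      have := cat_nonneg v _ le_rfl
      have h1 : (m : ℤ) ≤ lev ℓ (endPt (cat v)) := by
        rw [endPt_cat, map_sum]
        calc (m : ℤ) = ∑ _i : Fin m, (1 : ℤ) := by simp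
          _ ≤ _ := Finset.sum_le_sum fun i _ => (v i).2.lev_pos
      omega
  refine (ENNReal.tsum_le_tsum hstep).trans ?_
  simp only [mul_add, ENNReal.tsum_add, ENNReal.tsum_mul_right]
  have hνm : ∑' y, nu μ ℓ m y = 1 := by
    have := tsum_nu_mul (μ := μ) (ℓ := ℓ) m (fun _ => (1 : ℝ≥0∞))
    simp only [mul_one] at this
    rw [← this, tsum_W_cat hp]
  simp only [hνm, one_mul]
  have hA1s : ∑' u, A1 u = smallD μ ℓ η' := by
    have : ∀ u, A1 u = W μ (cat u) * smallD μ ℓ η' := fun u => partD_eq η' u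
    rw [tsum_congr this, ENNReal.tsum_mul_right, tsum_W_cat hp, one_mul]
  have hA2s : ∑' u, A2 u ≤ η := tsum_partQ_le n₀ η
  have hA3s : ∑' u, ∑' y, nu μ ℓ m y * nd u y ≤ η'⁻¹ * (η⁻¹ * (K * annealed μ (Back ℓ m))) := by
    calc _ ≤ ∑' u, ∑' z, η'⁻¹ * (η⁻¹ * (K * (nu μ ℓ (n₀ + m) z * A3 u z))) := by
          refine ENNReal.tsum_le_tsum fun u => ?_
          conv_rhs => rw [← (Equiv.addLeft (endPt (cat u))).tsum_eq]
          refine ENNReal.tsum_le_tsum fun y => ?_
          simp only [hnd, Equiv.coe_addLeft]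
          split_ifs with h
          · simp
          · calc _ ≤ K * nu μ ℓ (n₀ + m) (endPt (cat u) + y) *
                    (η'⁻¹ * (η⁻¹ * A3 u (endPt (cat u) + y))) := mul_le_mul' (not_lt.1 h) le_rfl
              _ = _ := by ring
      _ = η'⁻¹ * (η⁻¹ * (K * ∑' z, nu μ ℓ (n₀ + m) z * ∑' u, A3 u z)) := by
          rw [ENNReal.tsum_comm]
          simp only [ENNReal.tsum_mul_left]
      _ ≤ η'⁻¹ * (η⁻¹ * (K * ∑' z, nu μ ℓ (n₀ + m) z * annealed μ (Back ℓ m))) := by
          refine mul_le_mul' le_rfl (mul_le_mul' le_rfl (mul_le_mul' le_rfl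
            (ENNReal.tsum_le_tsum fun z => mul_le_mul' le_rfl ?_)))
          simp only [hA3, partW]
          rw [← lintegral_tsum fun u => ((measurable_qB u).fun_mul (measurable_quenched_tau z (measurableSet_back ℓ m))).aemeasurable,
            ← lintegral_quenched_tau z (measurableSet_back ℓ m)]
          refine lintegral_mono fun ω => ?_
          rw [ENNReal.tsum_mul_right]
          refine mul_le_of_le_one_left' ?_
          rw [← measure_iUnion (blkEvent_disjoint n₀) measurableSet_blkEvent]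
          exact prob_le_one
      _ ≤ _ := by
          rw [ENNReal.tsum_mul_right]
          refine mul_le_mul' le_rfl (mul_le_mul' le_rfl (mul_le_mul' le_rfl (mul_le_of_le_one_left' ?_)))
          have := tsum_nu_mul (μ := μ) (ℓ := ℓ) (n₀ + m) (fun _ => (1 : ℝ≥0∞))
          simp only [mul_one] at this
          rw [← this, tsum_W_cat hp]
  have htail : ∑' u, ∑' y, nu μ ℓ m y * (W μ (cat u) * t u y) = tailW μ ℓ n₀ m K := by
    rw [tailW]
    calc _ = ∑' u, W μ (cat u) * ∑' y, nu μ ℓ m y * t u y := by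
          simp only [← ENNReal.tsum_mul_left]
          exact tsum_congr fun u => tsum_congr fun y => mul_left_comm _ _ _
      _ = ∑' x, nu μ ℓ n₀ x * ∑' y, nu μ ℓ m y *
            (if K * nu μ ℓ (n₀ + m) (x + y) < nu μ ℓ m y then 1 else 0) :=
          tsum_nu_mul n₀ fun x => ∑' y, nu μ ℓ m y *
            (if K * nu μ ℓ (n₀ + m) (x + y) < nu μ ℓ m y then 1 else 0)
      _ = _ := by
          refine tsum_congr fun x => ?_
          rw [← ENNReal.tsum_mul_left]
          exact tsum_congr fun y => (mul_assoc _ _ _).symm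
  rw [htail, hA1s, ENNReal.tsum_mul_left, add_assoc (tailW μ ℓ n₀ m K)]
  refine add_le_add le_rfl ?_
  rw [add_assoc]
  exact add_le_add le_rfl (add_le_add (mul_le_mul' le_rfl hA2s) hA3s)

end Vale.Agent.P147.Law
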