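import Vale.Agent.P147.Law.Low
import Vale.Agent.P147.Law.BandDefs

/-!
Meetings split into a low part and dyadic bands of blocks below the top.
-/

noncomputable section

namespace Vale.Agent.P147.Law

open MeasureTheory ProbabilityTheory
open scoped ENNReal

variable {d : ℕ} {μ : Measure (Row d)} {ℓ : Fin d → ℤ}

/-- The length of the first `j` blocks. -/
def pl {n : ℕ} (bs : Fin n → Blk ℓ) (j : ℕ) : ℕ :=
  ((List.ofFn fun i => (bs i).1).take j).flatten.length

lemma pl_append {a b : ℕ} (u : Fin a → Blk ℓ) (v : Fin b → Blk ℓ) {j : ℕ} (h : j ≤ a) :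
    pl (Fin.append u v) j = pl u j := by
  have : (List.ofFn fun i => (Fin.append u v i).1) =
      (List.ofFn fun i => (u i).1) ++ List.ofFn fun i => (v i).1 := by
    rw [← List.ofFn_fin_append]
    congr 1
    funext i
    refine Fin.addCases (fun j => ?_) (fun j => ?_) i <;> simp
  rw [pl, this, List.take_append_of_le_length (by simpa using h)]
  rfl

lemma pl_self {n : ℕ} (bs : Fin n → Blk ℓ) : pl bs n = (cat bs).length := by
  rw [pl, List.take_of_length_le (by simp)]
  rfl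

lemma take_cat_append {a b : ℕ} (u : Fin a → Blk ℓ) (v : Fin b → Blk ℓ) :
    (cat (Fin.append u v)).take (pl (Fin.append u v) a) = cat u := by
  rw [pl_append u v le_rfl, pl_self, cat_append, List.take_left]

/-- A descent from the top of `A` visits one of its first `p` sources. -/
def LowHit (ℓ : Fin d → ℤ) (A : List (Dir d)) (p : ℕ) : Set (Walk d) :=
  Dp (-ℓ) \ Avoid {x | endPt A + x ∈ srcs 0 (A.take p)}

/-- The first meeting is low or lies in one band. -/
lemma meet_subset {n k : ℕ} (bs : Fin n → Blk ℓ) :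
    Dp (-ℓ) \ Avoid {x | endPt (cat bs) + x ∈ srcs 0 (cat bs)} ⊆
      LowHit ℓ (cat bs) (pl bs (n - 2 ^ k)) ∪
      (FirstHitIn ℓ (cat bs) (pl bs (n - 1)) (pl bs n) ∪
      ⋃ i ∈ Finset.range k,
        FirstHitIn ℓ (cat bs) (pl bs (n - 2 ^ (i + 1))) (pl bs (n - 2 ^ i))) := by
  classical
  rintro r ⟨hr, hmeet⟩
  set A := cat bs
  set z := endPt A
  simp only [Avoid, Set.mem_ofPred_eq, not_forall, not_not] at hmeet
  obtain ⟨N, hN⟩ := hmeet
  obtain ⟨j, hj, hje⟩ := mem_srcs.1 hN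
  have hex : ∃ t, t < A.length ∧ ∃ i, z + pos r i = endPt (A.take t) :=
    ⟨j, hj, N, by simpa using hje⟩
  set τ := Nat.find hex
  obtain ⟨hτlt, hτhit⟩ := Nat.find_spec hex
  have hband : ∀ a b, a ≤ τ → τ < b → r ∈ FirstHitIn ℓ A a b := by
    intro a b ha hb
    refine Set.mem_biUnion (Finset.mem_coe.2 (Finset.mem_Ico.2 ⟨ha, hb⟩)) ⟨⟨hr, ?_⟩, hτhit⟩
    intro i hi
    obtain ⟨t, ht, hte⟩ := mem_srcs.1 (show z + pos r i ∈ srcs 0 (A.take τ) from hi)
    rw [List.length_take] at ht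
    refine Nat.find_min hex (show t < τ by omega) ⟨by omega, i, ?_⟩
    rw [hte, zero_add, List.take_take, min_eq_left (by omega)]
  rcases lt_or_ge τ (pl bs (n - 2 ^ k)) with h | h
  · refine Or.inl ⟨hr, fun hav => ?_⟩
    obtain ⟨i, hi⟩ := hτhit
    refine hav i (show z + pos r i ∈ srcs 0 (A.take (pl bs (n - 2 ^ k))) from mem_srcs.2
      ⟨τ, by rw [List.length_take]; omega, ?_⟩)
    rw [hi, zero_add, List.take_take, min_eq_left h.le]
  rcases le_or_gt (pl bs (n - 1)) τ with h1 | h1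
  · exact Or.inr (Or.inl (hband _ _ h1 (by rw [pl_self]; exact hτlt)))
  · cases k with
    | zero => simp at h; omega
    | succ k =>
      have hex2 : ∃ i, pl bs (n - 2 ^ (i + 1)) ≤ τ := ⟨k, h⟩
      refine Or.inr (Or.inr (Set.mem_biUnion
        (Finset.mem_range.2 (Nat.lt_succ_of_le (Nat.find_min' hex2 h)))
        (hband _ _ (Nat.find_spec hex2) ?_)))
      rcases Nat.eq_zero_or_pos (Nat.find hex2) with h0 | h0
      · rw [h0]; simpa using h1
      · obtain ⟨i, hi⟩ := Nat.exists_eq_add_of_le h0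
        have := Nat.find_min hex2 (show i < Nat.find hex2 by omega)
        rw [hi, Nat.succ_eq_add_one, zero_add, add_comm 1 i]
        omega

variable [IsProbabilityMeasure μ]

lemma tsum_lowHit {n a b : ℕ} (h : a + b = n) :
    ∑' bs : Fin n → Blk ℓ, W μ (cat bs) * annealed μ (LowHit ℓ (cat bs) (pl bs a)) =
      lowW μ ℓ a b := by
  subst h
  rw [lowW, tsum_split]
  refine tsum_congr fun u => tsum_congr fun v => ?_
  rw [LowHit, take_cat_append, W_cat_append, cat_append, endPt_append]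

lemma tsum_bandHit {n a b c : ℕ} (h : a + b + c = n) :
    ∑' bs : Fin n → Blk ℓ,
        W μ (cat bs) * annealed μ (FirstHitIn ℓ (cat bs) (pl bs a) (pl bs (a + b))) =
      bandW μ ℓ a b c := by
  subst h
  rw [bandW, tsum_split, tsum_split]
  refine tsum_congr fun u => tsum_congr fun v => tsum_congr fun w => ?_
  simp only [W_cat_append]
  rw [pl_append _ _ (Nat.le_add_right a b), pl_append _ _ le_rfl, pl_self, pl_append _ _ le_rfl,
    pl_self, cat_append, cat_append, List.length_append]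

/-- Meetings are low or fall in one dyadic band. -/
theorem meetW_le {K J n : ℕ} (hK : K ≤ J) (hn : n ∈ Finset.Ioc (2 ^ J) (2 ^ (J + 1))) :
    meetW μ ℓ n ≤ lowW μ ℓ (n - 2 ^ (J - K)) (2 ^ (J - K)) + bandW μ ℓ (n - 1) 1 0 +
      ∑ i ∈ Finset.range (J - K), bandW μ ℓ (n - 2 ^ (i + 1)) (2 ^ i) (2 ^ i) := by
  classical
  set k := J - K
  have hn1 : 2 ^ J < n := (Finset.mem_Ioc.1 hn).1
  have hpk : ∀ i ≤ k, 2 ^ i ≤ n := fun i hi =>
    (Nat.pow_le_pow_right (by norm_num) (by omega : i ≤ J)).trans hn1.le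
  have hone : 1 ≤ n := Nat.one_le_two_pow.trans hn1.le
  rw [meetW, ← tsum_lowHit (n := n) (Nat.sub_add_cancel (hpk k le_rfl)),
    ← tsum_bandHit (n := n) (a := n - 1) (b := 1) (c := 0) (by omega),
    ← ENNReal.tsum_add]
  have hsum : ∀ i ∈ Finset.range k, bandW μ ℓ (n - 2 ^ (i + 1)) (2 ^ i) (2 ^ i) =
      ∑' bs : Fin n → Blk ℓ, W μ (cat bs) * annealed μ (FirstHitIn ℓ (cat bs)
        (pl bs (n - 2 ^ (i + 1))) (pl bs (n - 2 ^ i))) := by
    intro i hi
    have h2 := hpk (i + 1) (Finset.mem_range.1 hi)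
    have h3 : n - 2 ^ (i + 1) + 2 ^ i = n - 2 ^ i := by rw [pow_succ] at h2 ⊢; omega
    rw [← tsum_bandHit (n := n) (a := n - 2 ^ (i + 1)) (b := 2 ^ i) (c := 2 ^ i)
      (by rw [pow_succ] at h2 ⊢; omega), h3]
  rw [Finset.sum_congr rfl hsum, ← Summable.tsum_finsetSum (fun _ _ => ENNReal.summable),
    ← ENNReal.tsum_add]
  refine ENNReal.tsum_le_tsum fun bs => ?_
  rw [Nat.sub_add_cancel hone]
  calc W μ (cat bs) * annealed μ (Dp (-ℓ) \ Avoid {x | endPt (cat bs) + x ∈ srcs 0 (cat bs)})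
      ≤ W μ (cat bs) * (annealed μ (LowHit ℓ (cat bs) (pl bs (n - 2 ^ k))) +
          (annealed μ (FirstHitIn ℓ (cat bs) (pl bs (n - 1)) (pl bs n)) +
          ∑ i ∈ Finset.range k, annealed μ
            (FirstHitIn ℓ (cat bs) (pl bs (n - 2 ^ (i + 1))) (pl bs (n - 2 ^ i))))) := by
        refine mul_le_mul' le_rfl ((measure_mono (meet_subset (k := k) bs)).trans ?_)
        refine (measure_union_le _ _).trans (add_le_add le_rfl ?_)
        exact (measure_union_le _ _).trans
          (add_le_add le_rfl (measure_biUnion_finset_le _ _))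
    _ = _ := by rw [mul_add, mul_add, Finset.mul_sum, ← add_assoc]

/-- The mean level of `b` blocks. -/
theorem sum_levW_le (hp : annealed μ (Dp ℓ) ≠ 0) (b : ℕ) :
    ∑' bs : Fin b → Blk ℓ, W μ (cat bs) * ((lev ℓ (endPt (cat bs))).toNat : ℝ≥0∞) ≤
      b * ∑' q, blkPMF μ hp q * blkLev q := by
  have hlev : ∀ {k : ℕ} (v : Fin k → Blk ℓ),
      (lev ℓ (endPt (cat v))).toNat = ∑ i, blkLev (v i) := fun v => by
    rw [lev_cat, Int.toNat_natCast]
  induction b with
  | zero => simp [cat_zero]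
  | succ b ih =>
    have h1 : ∑' v : Fin 1 → Blk ℓ, W μ (cat v) * ((lev ℓ (endPt (cat v))).toNat : ℝ≥0∞) =
        ∑' q, blkPMF μ hp q * blkLev q := by
      rw [← (Equiv.funUnique (Fin 1) (Blk ℓ)).tsum_eq fun q => blkPMF μ hp q * blkLev q]
      refine tsum_congr fun v => ?_
      rw [hlev, W_cat]
      simp [blkPMF_apply]
    rw [tsum_split]
    calc ∑' u : Fin b → Blk ℓ, ∑' v : Fin 1 → Blk ℓ,
          W μ (cat (Fin.append u v)) * ((lev ℓ (endPt (cat (Fin.append u v)))).toNat : ℝ≥0∞)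
        = ∑' u : Fin b → Blk ℓ, ∑' v : Fin 1 → Blk ℓ,
            (W μ (cat u) * ((lev ℓ (endPt (cat u))).toNat : ℝ≥0∞) * W μ (cat v) +
              W μ (cat u) * (W μ (cat v) * ((lev ℓ (endPt (cat v))).toNat : ℝ≥0∞))) := by
          refine tsum_congr fun u => tsum_congr fun v => ?_
          rw [W_cat_append, hlev, hlev, hlev, Fin.sum_univ_add]
          simp only [Fin.append_left, Fin.append_right, Nat.cast_add]
          ring
      _ = (∑' u : Fin b → Blk ℓ, W μ (cat u) * ((lev ℓ (endPt (cat u))).toNat : ℝ≥0∞)) +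
            ∑' q, blkPMF μ hp q * blkLev q := by
          simp only [ENNReal.tsum_add, ENNReal.tsum_mul_left, tsum_W_cat hp, mul_one, h1,
            ENNReal.tsum_mul_right, one_mul]
      _ ≤ _ := by
          rw [Nat.cast_succ, add_mul, one_mul]
          exact add_le_add ih le_rfl

end Vale.Agent.P147.Law
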