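import Vale.Agent.P147.Law.BandMain
import Vale.Agent.P147.Law.Split
import Vale.Agent.P147.Law.Entropy
import Vale.Agent.P147.Dir.Line

/-!
The directional zero-one law for integer directions, in every dimension.
-/

noncomputable section

namespace Vale.Agent.P147.Law

open MeasureTheory ProbabilityTheory Filter
open scoped ENNReal Topology

variable {d : ℕ} {μ : Measure (Row d)} {ℓ : Fin d → ℤ}

/-- The weight of one band seen `q` dyadic scales below the top. -/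
def bandC (q : ℕ) : ℝ≥0∞ := (((2 ^ (q / 4) : ℕ) : ℝ≥0∞))⁻¹

lemma bandC_eq (q : ℕ) : bandC q = (2⁻¹ : ℝ≥0∞) ^ (q / 4) := by
  rw [bandC, Nat.cast_pow, Nat.cast_ofNat, ENNReal.inv_pow]

lemma tsum_bandC_ne_top : ∑' q, bandC q ≠ ⊤ := by
  have e : ∑' q, bandC q = ∑' r : ℕ, ∑' _j : Fin 4, (2⁻¹ : ℝ≥0∞) ^ r := by
    rw [← ENNReal.tsum_prod, ← (Nat.divModEquiv 4).tsum_eq]
    exact tsum_congr fun q => bandC_eq q
  rw [e]
  simp only [tsum_fintype, Finset.sum_const, Finset.card_univ, Fintype.card_fin, nsmul_eq_mul]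
  rw [ENNReal.tsum_mul_left, ENNReal.tsum_geometric]
  refine ENNReal.mul_ne_top (by simp) (ENNReal.inv_ne_top.2 ?_)
  rw [ENNReal.one_sub_inv_two]
  simp

variable [IsProbabilityMeasure μ]

/-- The probability of descending `m` levels and still escaping upwards tends to zero. -/
lemma tendsto_back : Tendsto (fun m => annealed μ (Back ℓ m)) atTop (𝓝 0) := by
  have hanti : Antitone (Back (d := d) ℓ) := fun a b hab r hr =>
    ⟨hr.1, let ⟨i, hi⟩ := hr.2; ⟨i, hi.trans (neg_le_neg (by exact_mod_cast hab))⟩⟩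
  have h0 : ⋂ m, Back (d := d) ℓ m = ∅ := by
    refine Set.eq_empty_iff_forall_notMem.2 fun r hr => ?_
    rw [Set.mem_iInter] at hr
    obtain ⟨N, hN⟩ := eventually_atTop.1 (tendsto_atTop.1 (hr 0).1 0)
    obtain ⟨B, hB⟩ := ((Finset.range (N + 1)).image fun i => lev ℓ (pos r i)).bddBelow
    obtain ⟨i, hi⟩ := (hr ((-B).toNat + 1)).2
    push_cast at hi
    rcases le_or_gt i N with h | h
    · have := hB (Finset.mem_coe.2 (Finset.mem_image.2 ⟨i, Finset.mem_range.2 (by omega), rfl⟩))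
      omega
    · have := hN i h.le
      omega
  have := tendsto_measure_iInter_atTop (μ := annealed μ)
    (fun m => (measurableSet_back ℓ m).nullMeasurableSet) hanti ⟨0, measure_ne_top _ _⟩
  rwa [h0, measure_empty] at this

/-- Atypical displacements are controlled by the information. -/
lemma tailW_mul_le (hp : annealed μ (Dp ℓ) ≠ 0) (n₀ m : ℕ) {k : ℕ} (hk : 1 ≤ k) :
    tailW μ ℓ n₀ m k * ENNReal.ofReal (Real.log k) ≤ info μ ℓ n₀ m := by
  classical
  rw [tailW, info, ← ENNReal.tsum_mul_right]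
  refine ENNReal.tsum_le_tsum fun x => ?_
  rw [← ENNReal.tsum_mul_right]
  refine ENNReal.tsum_le_tsum fun y => ?_
  rw [mul_assoc]
  rcases eq_or_ne (nu μ ℓ n₀ x * nu μ ℓ m y) 0 with h0 | h0
  · simp [h0]
  refine mul_le_mul' le_rfl ?_
  split_ifs with h
  · have hpos : nu μ ℓ (n₀ + m) (x + y) ≠ 0 := by
      intro hz
      refine h0 (nonpos_iff_eq_zero.1 ?_)
      rw [← hz, nu_add]
      refine le_trans (le_of_eq ?_) (ENNReal.le_tsum x)
      rw [add_sub_cancel_left]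
    rw [one_mul, lpos]
    refine ENNReal.ofReal_le_ofReal (Real.log_le_log (by exact_mod_cast hk) ?_)
    rw [le_div_iff₀ (ENNReal.toReal_pos hpos (nu_ne_top hp _ _))]
    have := ENNReal.toReal_mono (nu_ne_top hp _ _) h.le
    rwa [ENNReal.toReal_mul, ENNReal.toReal_natCast] at this
  · simp

/-- The level cap is a Markov bound. -/
lemma capW_mul_le (hp : annealed μ (Dp ℓ) ≠ 0) (b R : ℕ) :
    capW μ ℓ b R * R ≤ b * ∑' q, blkPMF μ hp q * blkLev q := by
  classical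
  refine le_trans ?_ (sum_levW_le hp b)
  rw [capW, ← ENNReal.tsum_mul_right]
  refine ENNReal.tsum_le_tsum fun bs => ?_
  split_ifs with h
  · exact mul_le_mul' le_rfl (Nat.cast_le.2 (by omega))
  · simp

/-- The constant of the band bound. -/
def bandK (μ : Measure (Row d)) [IsProbabilityMeasure μ] (hp : annealed μ (Dp ℓ) ≠ 0) : ℝ≥0∞ :=
  ∑' q, blkPMF μ hp q * blkLev q +
    (1 + (annealed μ (Dp ℓ))⁻¹) * (annealed μ (Dp ℓ))⁻¹ * 8 + 3

lemma bandK_ne_top (hp : annealed μ (Dp ℓ) ≠ 0) : bandK μ hp ≠ ⊤ := by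
  have h1 := mean_blkLev hp
  have h2 := ENNReal.inv_ne_top.2 hp
  simp only [bandK]
  finiteness

/-- One band, summed over one dyadic range of heights. -/
lemma band_avg_le (he : IsElliptic μ) (hp : annealed μ (Dp ℓ) ≠ 0) {J q n₁ n₂ : ℕ}
    (hb : 0 < n₁ + n₂) (hN : n₁ + n₂ ≤ 2 ^ J) (hq : (n₁ + n₂) * 2 ^ q ≤ 2 ^ J) :
    ∑ n ∈ Finset.Ioc (2 ^ J) (2 ^ (J + 1)), bandW μ ℓ (n - (n₁ + n₂)) n₁ n₂ ≤
      (2 ^ J : ℕ) * (bandK μ hp * bandC q * (1 + info μ ℓ n₁ n₂)) := by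
  classical
  set b := n₁ + n₂
  set I := Finset.Ioc (2 ^ J) (2 ^ (J + 1))
  set N := 2 ^ J with hNdef
  set s := 2 ^ (q / 4) with hs
  have hinj : Set.InjOn (fun n => n - b) I := by
    intro a ha a' ha' h
    simp only [I, Finset.coe_Ioc, Set.mem_Ioc] at ha ha' h
    omega
  rw [← Finset.sum_image (f := fun n₀ => bandW μ ℓ n₀ n₁ n₂) hinj]
  have hcard : (I.image fun n => n - b).card = N := by
    rw [Finset.card_image_of_injOn hinj, Nat.card_Ioc, pow_succ]
    omega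
  have hs1 : 1 ≤ s := Nat.one_le_two_pow
  have hsC : bandC q = (s : ℝ≥0∞)⁻¹ := rfl
  have hs0 : (s : ℝ≥0∞) ≠ 0 := by exact_mod_cast (by omega : s ≠ 0)
  have hst : (s : ℝ≥0∞) ≠ ⊤ := ENNReal.natCast_ne_top s
  refine (bandW_sum_le he hp (I.image fun n => n - b) n₁ n₂ (s * b)
    (Λ := (s : ℝ≥0∞)) (η := (s : ℝ≥0∞)⁻¹) hs0 hst (ENNReal.inv_ne_zero.2 hst)
    (ENNReal.inv_ne_top.2 hs0)).trans ?_
  rw [hcard, hsC, inv_inv]
  set x := (s : ℝ≥0∞)⁻¹ with hx
  set p := annealed μ (Dp ℓ)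
  set E := ∑' q, blkPMF μ hp q * blkLev q
  set H := info μ ℓ n₁ n₂
  have hcap : capW μ ℓ b (s * b) ≤ E * x := by
    have h := capW_mul_le hp b (s * b)
    rw [Nat.cast_mul, ← mul_assoc, mul_comm (b : ℝ≥0∞)] at h
    rw [ENNReal.mul_le_mul_iff_left (by exact_mod_cast hb.ne') (ENNReal.natCast_ne_top b)] at h
    rw [hx, ← div_eq_mul_inv, ENNReal.le_div_iff_mul_le (Or.inl hs0) (Or.inl hst)]
    exact h
  have hsq : s * s * (2 * (s * b) + 1) * s ≤ 3 * N := by
    have h4 : s * s * s * s ≤ 2 ^ q := by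
      simp only [hs, ← pow_add]
      exact Nat.pow_le_pow_right two_pos (by omega)
    have hsb : 1 ≤ s * b := Nat.one_le_iff_ne_zero.2 (by positivity)
    calc s * s * (2 * (s * b) + 1) * s ≤ s * s * (3 * (s * b)) * s := by gcongr; omega
      _ = 3 * (b * (s * s * s * s)) := by ring
      _ ≤ 3 * (b * 2 ^ q) := by gcongr
      _ ≤ 3 * N := Nat.mul_le_mul_left 3 hq
  have hlast : (s : ℝ≥0∞) * s * ((2 * (s * b) + 1 : ℕ) : ℝ≥0∞) ≤ (N : ℝ≥0∞) * (3 * x) := by
    rw [hx, ← div_eq_mul_inv (3 : ℝ≥0∞), ← mul_div_assoc, ENNReal.le_div_iff_mul_le (Or.inl hs0) (Or.inl hst),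
      mul_comm (N : ℝ≥0∞) 3]
    exact_mod_cast hsq
  calc (N : ℝ≥0∞) * capW μ ℓ b (s * b) + (x + p⁻¹ * x) * (N * (p⁻¹ * (6 + 8 * H))) +
        (s : ℝ≥0∞) * s * ((2 * (s * b) + 1 : ℕ) : ℝ≥0∞)
      ≤ N * (E * x * (1 + H)) + (x + p⁻¹ * x) * (N * (p⁻¹ * (8 * (1 + H)))) +
        N * (3 * x * (1 + H)) := by
        refine add_le_add (add_le_add ?_ ?_) ?_
        · exact mul_le_mul' le_rfl (hcap.trans (le_mul_of_one_le_right' le_self_add))
        · refine mul_le_mul' le_rfl (mul_le_mul' le_rfl (mul_le_mul' le_rfl ?_))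
          rw [mul_add, mul_one]
          exact add_le_add (by norm_num) le_rfl
        · exact hlast.trans (mul_le_mul' le_rfl (le_mul_of_one_le_right' le_self_add))
    _ = _ := by simp only [bandK]; ring

/-- The low part, summed over one dyadic range of heights. -/
lemma low_avg_le (hp : annealed μ (Dp ℓ) ≠ 0) (J K : ℕ) {k : ℕ} (hk : 1 ≤ k)
    (hL : ENNReal.ofReal (Real.log k) ≠ 0) {η η' : ℝ≥0∞}
    (hη : η ≠ 0) (hηt : η ≠ ⊤) (hη' : η' ≠ 0) (hη't : η' ≠ ⊤) :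
    ∑ n ∈ Finset.Ioc (2 ^ J) (2 ^ (J + 1)), lowW μ ℓ (n - 2 ^ (J - K)) (2 ^ (J - K)) ≤
      (2 ^ J : ℕ) * ((⨆ n ∈ Finset.Ioc (2 ^ J) (2 ^ (J + 1)),
          info μ ℓ (n - 2 ^ (J - K)) (2 ^ (J - K))) / ENNReal.ofReal (Real.log k) +
        (smallD μ ℓ η' + η'⁻¹ * η) + η'⁻¹ * η⁻¹ * k * annealed μ (Back ℓ (2 ^ (J - K)))) := by
  classical
  set D := (⨆ n ∈ Finset.Ioc (2 ^ J) (2 ^ (J + 1)),
      info μ ℓ (n - 2 ^ (J - K)) (2 ^ (J - K))) / ENNReal.ofReal (Real.log k) +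
    (smallD μ ℓ η' + η'⁻¹ * η) + η'⁻¹ * η⁻¹ * k * annealed μ (Back ℓ (2 ^ (J - K)))
  refine (Finset.sum_le_card_nsmul _ _ D fun n hn => ?_).trans (le_of_eq ?_)
  rotate_left
  · rw [Nat.card_Ioc, nsmul_eq_mul, pow_succ, show 2 ^ J * 2 - 2 ^ J = 2 ^ J by omega]
  refine (lowW_le hp (n - 2 ^ (J - K)) (2 ^ (J - K)) (k : ℝ≥0∞) hη hηt hη' hη't).trans ?_
  calc tailW μ ℓ (n - 2 ^ (J - K)) (2 ^ (J - K)) k + smallD μ ℓ η' +
        η'⁻¹ * (η + η⁻¹ * (k * annealed μ (Back ℓ (2 ^ (J - K)))))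
      ≤ info μ ℓ (n - 2 ^ (J - K)) (2 ^ (J - K)) / ENNReal.ofReal (Real.log k) + smallD μ ℓ η' +
        η'⁻¹ * (η + η⁻¹ * (k * annealed μ (Back ℓ (2 ^ (J - K))))) := by
        refine add_le_add (add_le_add ?_ le_rfl) le_rfl
        rw [ENNReal.le_div_iff_mul_le (Or.inl hL) (Or.inl ENNReal.ofReal_ne_top)]
        exact tailW_mul_le hp _ _ hk
    _ = info μ ℓ (n - 2 ^ (J - K)) (2 ^ (J - K)) / ENNReal.ofReal (Real.log k) +
        (smallD μ ℓ η' + η'⁻¹ * η) + η'⁻¹ * η⁻¹ * k * annealed μ (Back ℓ (2 ^ (J - K))) := by ring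
    _ ≤ _ := by
        refine add_le_add (add_le_add (ENNReal.div_le_div_right ?_ _) le_rfl) le_rfl
        exact le_iSup₂ (f := fun n (_ : n ∈ Finset.Ioc (2 ^ J) (2 ^ (J + 1))) =>
          info μ ℓ (n - 2 ^ (J - K)) (2 ^ (J - K))) n hn

/-- All the bands above the low part, summed over the scales. -/
lemma band_scales_le (K J0 : ℕ) {c : ℝ≥0∞} (hc : ∀ J0 : ℕ,
      ∑ i ∈ Finset.range J0, info μ ℓ (2 ^ i) (2 ^ i) ≤ c * (J0 + 1)) :
    ∑ J ∈ Finset.range J0, ∑ i ∈ Finset.range (J - K),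
        bandC (J - i - 1) * (1 + info μ ℓ (2 ^ i) (2 ^ i)) ≤
      (1 + c) * (J0 + 1) * ∑' q, bandC (q + K) := by
  classical
  rw [Finset.sum_comm' (t' := Finset.range J0)
    (s' := fun i => (Finset.range J0).filter fun J => i + K < J) (fun J i => by
      simp only [Finset.mem_range, Finset.mem_filter]; omega)]
  calc ∑ i ∈ Finset.range J0, ∑ J ∈ (Finset.range J0).filter (fun J => i + K < J),
        bandC (J - i - 1) * (1 + info μ ℓ (2 ^ i) (2 ^ i))
      ≤ ∑ i ∈ Finset.range J0, (1 + info μ ℓ (2 ^ i) (2 ^ i)) * ∑' q, bandC (q + K) := by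
        refine Finset.sum_le_sum fun i _ => ?_
        rw [← Finset.sum_mul, mul_comm]
        refine mul_le_mul' le_rfl ?_
        set S := (Finset.range J0).filter fun J => i + K < J
        have hinj : Set.InjOn (fun J => J - i - 1 - K) S := by
          intro a ha a' ha' h
          simp only [S, Finset.coe_filter, Finset.mem_range, Set.mem_ofPred_eq] at ha ha' h
          omega
        refine le_trans (le_of_eq ?_) (ENNReal.sum_le_tsum (S.image fun J => J - i - 1 - K))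
        rw [Finset.sum_image hinj]
        refine Finset.sum_congr rfl fun J hJ => congrArg bandC ?_
        simp only [S, Finset.mem_filter] at hJ
        omega
    _ ≤ _ := by
        rw [← Finset.sum_mul]
        refine mul_le_mul' ?_ le_rfl
        rw [Finset.sum_add_distrib, Finset.sum_const, Finset.card_range, nsmul_one, add_mul,
          one_mul]
        exact add_le_add le_self_add (hc J0)

/-- **Both opposite escapes cannot have positive probability.** -/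
theorem not_both (he : IsElliptic μ) (hp : annealed μ (Dp ℓ) ≠ 0)
    (hm : annealed μ (Dp (-ℓ)) ≠ 0) : False := by
  classical
  set ε := annealed μ (Dp (-ℓ)) / 2
  set δ := ε / 13
  have hεt : ε ≠ ⊤ := ENNReal.div_ne_top (measure_ne_top _ _) two_ne_zero
  have hε : ε ≠ 0 := ENNReal.div_ne_zero.2 ⟨hm, by simp⟩
  have hδ : δ ≠ 0 := ENNReal.div_ne_zero.2 ⟨hε, by simp⟩
  have hδt : δ ≠ ⊤ := ENNReal.div_ne_top hεt (by norm_num)
  obtain ⟨c1, hc1t, hc1⟩ := info_one_le he hp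
  obtain ⟨c3, hc3t, hc3⟩ := info_dyadic he hp
  obtain ⟨c2, hc2t, hc2⟩ := info_low he hp
  set C0 := bandK μ hp
  have hC0 : C0 ≠ ⊤ := bandK_ne_top hp
  obtain ⟨η', hη', hη'1, hsmall⟩ := exists_small_Dp he hp hδ
  have hη't : η' ≠ ⊤ := ne_top_of_le_ne_top ENNReal.one_ne_top hη'1
  set η := δ * η'
  have hη : η ≠ 0 := mul_ne_zero hδ hη'
  have hηt : η ≠ ⊤ := ENNReal.mul_ne_top hδt hη't
  have hA : smallD μ ℓ η' + η'⁻¹ * η ≤ δ + δ := by
    refine add_le_add hsmall (le_of_eq ?_)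
    rw [mul_left_comm, ENNReal.inv_mul_cancel hη' hη't, mul_one]
  -- the number of bands
  have hKlim : Tendsto (fun K => C0 * (1 + c3) * ∑' q, bandC (q + K)) atTop (𝓝 0) := by
    have h := ENNReal.Tendsto.const_mul (a := C0 * (1 + c3))
      (ENNReal.tendsto_sum_nat_add bandC tsum_bandC_ne_top) (Or.inr (by finiteness))
    rwa [mul_zero] at h
  obtain ⟨K, hK⟩ := ((tendsto_order.1 hKlim).2 δ (pos_iff_ne_zero.2 hδ)).exists
  -- the size of the atypical displacements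
  have hklim : Tendsto (fun k : ℕ => ENNReal.ofReal (Real.log k)) atTop (𝓝 ⊤) :=
    ENNReal.tendsto_ofReal_atTop.comp (Real.tendsto_log_atTop.comp tendsto_natCast_atTop_atTop)
  obtain ⟨k, hk1, hk⟩ := ((eventually_ge_atTop 1).and ((tendsto_order.1 hklim).1
    (c2 * (K + 1) / δ + 1) (lt_top_iff_ne_top.2 (ENNReal.add_ne_top.2
      ⟨ENNReal.div_ne_top (by finiteness) hδ, ENNReal.one_ne_top⟩)))).exists
  set L := ENNReal.ofReal (Real.log k)
  have hL : L ≠ 0 := fun h => by rw [h] at hk; exact not_lt_zero hk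
  have hlow : c2 * (K + 1) / L ≤ δ := by
    rw [ENNReal.div_le_iff hL ENNReal.ofReal_ne_top]
    calc c2 * (K + 1) = c2 * (K + 1) / δ * δ := (ENNReal.div_mul_cancel hδ hδt).symm
      _ ≤ L * δ := mul_le_mul' (le_self_add.trans hk.le) le_rfl
      _ = δ * L := mul_comm _ _
  set M := η'⁻¹ * η⁻¹ * k
  have hM : M ≠ ⊤ := ENNReal.mul_ne_top (ENNReal.mul_ne_top (ENNReal.inv_ne_top.2 hη')
    (ENNReal.inv_ne_top.2 hη)) (ENNReal.natCast_ne_top k)
  -- the first height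
  have hback : Tendsto (fun J => M * annealed μ (Back ℓ (2 ^ (J - K)))) atTop (𝓝 0) := by
    have h := ENNReal.Tendsto.const_mul (a := M) ((tendsto_back (μ := μ) (ℓ := ℓ)).comp
      ((tendsto_pow_atTop_atTop_of_one_lt (one_lt_two (α := ℕ))).comp
        (tendsto_sub_atTop_nat K))) (Or.inr hM)
    rwa [mul_zero] at h
  have hone : Tendsto (fun J => C0 * (1 + c1) * bandC J) atTop (𝓝 0) := by
    have h := ENNReal.Tendsto.const_mul (a := C0 * (1 + c1))
      (ENNReal.tendsto_atTop_zero_of_tsum_ne_top tsum_bandC_ne_top) (Or.inr (by finiteness))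
    rwa [mul_zero] at h
  have hbigT : Tendsto (fun J : ℕ => ε * ((2 ^ J : ℕ) : ℝ≥0∞)) atTop (𝓝 ⊤) := by
    have h := ENNReal.Tendsto.const_mul (a := ε) (ENNReal.tendsto_nat_nhds_top.comp
      (tendsto_pow_atTop_atTop_of_one_lt (one_lt_two (α := ℕ)))) (Or.inr hεt)
    rwa [ENNReal.mul_top hε] at h
  obtain ⟨J1, hJ1⟩ := eventually_atTop.1 (((tendsto_order.1 hback).2 δ (pos_iff_ne_zero.2 hδ)).and
    (((tendsto_order.1 hone).2 δ (pos_iff_ne_zero.2 hδ)).and
      (((tendsto_order.1 hbigT).1 1 ENNReal.one_lt_top).and (eventually_ge_atTop K))))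
  -- the bound on one dyadic range
  set g : ℕ → ℝ≥0∞ := fun J => ⨆ n ∈ Finset.Ioc (2 ^ J) (2 ^ (J + 1)),
    info μ ℓ (n - 2 ^ (J - K)) (2 ^ (J - K))
  set B : ℕ → ℝ≥0∞ := fun J => ∑ i ∈ Finset.range (J - K),
    bandC (J - i - 1) * (1 + info μ ℓ (2 ^ i) (2 ^ i))
  set Q : ℕ → ℝ≥0∞ := fun J => g J / L + (δ + δ) + δ + δ + C0 * B J
  have hQ : ∀ J, J1 ≤ J → ∑ n ∈ Finset.Ioc (2 ^ J) (2 ^ (J + 1)), meetW μ ℓ n ≤
      (2 ^ J : ℕ) * Q J := by
    intro J hJ
    obtain ⟨hb1, hb2, -, hKJ⟩ := hJ1 J hJ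
    refine (Finset.sum_le_sum fun n hn => meetW_le hKJ hn).trans ?_
    rw [Finset.sum_add_distrib, Finset.sum_add_distrib, Finset.sum_comm]
    have hB : ∀ i ∈ Finset.range (J - K),
        ∑ n ∈ Finset.Ioc (2 ^ J) (2 ^ (J + 1)), bandW μ ℓ (n - 2 ^ (i + 1)) (2 ^ i) (2 ^ i) ≤
        (2 ^ J : ℕ) * (C0 * (bandC (J - i - 1) * (1 + info μ ℓ (2 ^ i) (2 ^ i)))) := by
      intro i hi
      have hi' := Finset.mem_range.1 hi
      have e : 2 ^ i + 2 ^ i = 2 ^ (i + 1) := by ring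
      rw [← mul_assoc C0, ← e]
      refine band_avg_le he hp (q := J - i - 1) (by positivity) ?_ ?_
      · rw [e]; exact Nat.pow_le_pow_right two_pos (by omega)
      · rw [e, ← pow_add]; exact Nat.pow_le_pow_right two_pos (by omega)
    refine (add_le_add (add_le_add (low_avg_le hp J K hk1 hL hη hηt hη' hη't)
      (band_avg_le he hp (n₁ := 1) (n₂ := 0) (q := J) (by norm_num) Nat.one_le_two_pow
        (by simp))) (Finset.sum_le_sum hB)).trans ?_
    rw [← Finset.mul_sum, ← Finset.mul_sum, ← mul_add, ← mul_add]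
    refine mul_le_mul' le_rfl (add_le_add (add_le_add (add_le_add (add_le_add le_rfl hA) ?_) ?_)
      le_rfl)
    · exact hb1.le
    · refine le_trans ?_ hb2.le
      rw [mul_right_comm C0 (1 + c1)]
      exact mul_le_mul' le_rfl (add_le_add le_rfl hc1)
  -- a dyadic range with few meetings
  obtain ⟨J, hJ, hJQ⟩ : ∃ J, J1 ≤ J ∧ Q J ≤ ε := by
    by_contra hcon
    push Not at hcon
    set J0 := 2 * J1 + 1
    have hsum : ∑ J ∈ Finset.Ico J1 J0, Q J ≤ (12 * δ) * (J1 + 1 : ℕ) := by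
      calc ∑ J ∈ Finset.Ico J1 J0, Q J ≤ ∑ J ∈ Finset.range J0, Q J :=
            Finset.sum_le_sum_of_subset (fun x hx => Finset.mem_range.2 (Finset.mem_Ico.1 hx).2)
        _ = (∑ J ∈ Finset.range J0, g J) * L⁻¹ + J0 * (δ + δ) + J0 * δ + J0 * δ +
            C0 * ∑ J ∈ Finset.range J0, B J := by
            simp only [Q, Finset.sum_add_distrib, Finset.sum_const, Finset.card_range,
              nsmul_eq_mul, ← Finset.mul_sum, div_eq_mul_inv, ← Finset.sum_mul]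
            ring
        _ ≤ c2 * (K + 1) * (J0 + 1) * L⁻¹ + J0 * (δ + δ) + J0 * δ + J0 * δ +
            C0 * ((1 + c3) * (J0 + 1) * ∑' q, bandC (q + K)) :=
            add_le_add (add_le_add (add_le_add (add_le_add
              (mul_le_mul' (hc2 K J0) le_rfl) le_rfl) le_rfl) le_rfl)
              (mul_le_mul' le_rfl (band_scales_le K J0 hc3))
        _ = c2 * (K + 1) / L * (J0 + 1) + J0 * (δ + δ) + J0 * δ + J0 * δ +
            C0 * (1 + c3) * (∑' q, bandC (q + K)) * (J0 + 1) := by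
            rw [div_eq_mul_inv]; ring
        _ ≤ δ * (J0 + 1) + (J0 + 1) * (δ + δ) + (J0 + 1) * δ + (J0 + 1) * δ +
            δ * (J0 + 1) := by
            gcongr
            · exact le_self_add
            · exact le_self_add
            · exact le_self_add
        _ = _ := by simp only [J0]; push_cast; ring
    have hlow2 : ε * (J1 + 1 : ℕ) ≤ ∑ J ∈ Finset.Ico J1 J0, Q J := by
      refine le_trans (le_of_eq ?_) (Finset.card_nsmul_le_sum _ _ ε fun J hJ =>
        (hcon J (Finset.mem_Ico.1 hJ).1).le)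
      rw [Nat.card_Ico, nsmul_eq_mul, mul_comm, show J0 - J1 = J1 + 1 by omega]
    have h := hlow2.trans hsum
    rw [ENNReal.mul_le_mul_iff_left (by simp) (ENNReal.natCast_ne_top _)] at h
    have : (12 : ℝ≥0∞) * δ < ε := by
      calc (12 : ℝ≥0∞) * δ < 13 * δ := ENNReal.mul_lt_mul_left hδ hδt (by norm_num)
        _ = ε := ENNReal.mul_div_cancel (by norm_num) (by norm_num)
    exact not_lt.2 h this
  -- too many apexes
  obtain ⟨-, -, hbig, -⟩ := hJ1 J hJ
  have hsum := Finset.sum_congr rfl fun n (_ : n ∈ Finset.Ioc (2 ^ J) (2 ^ (J + 1))) =>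
    avoidW_add_meetW (μ := μ) (ℓ := ℓ) hp n
  rw [Finset.sum_add_distrib, Finset.sum_const, Nat.card_Ioc, nsmul_eq_mul,
    show 2 ^ (J + 1) - 2 ^ J = 2 ^ J by rw [pow_succ]; omega] at hsum
  have h1 : ((2 ^ J : ℕ) : ℝ≥0∞) * annealed μ (Dp (-ℓ)) ≤ 1 + (2 ^ J : ℕ) * ε := by
    rw [← hsum]
    exact add_le_add ((ENNReal.sum_le_tsum _).trans tsum_avoidW_le)
      ((hQ J hJ).trans (mul_le_mul' le_rfl hJQ))
  rw [show annealed μ (Dp (-ℓ)) = ε + ε from (ENNReal.add_halves _).symm, mul_add,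
    ENNReal.add_le_add_iff_right (ENNReal.mul_ne_top (ENNReal.natCast_ne_top _) hεt),
    mul_comm] at h1
  exact not_lt.2 h1 hbig

/-- **Directional zero-one law, integer directions.** -/
theorem zero_one_int (he : IsElliptic μ) (ℓ : Fin d → ℤ) :
    annealed μ (Ap ℓ) = 0 ∨ annealed μ (Ap ℓ) = 1 := by
  rcases eq_or_ne (annealed μ (Ap ℓ)) 0 with h | h
  · exact Or.inl h
  refine Or.inr ?_
  have hneg : annealed μ (Ap (-ℓ)) = 0 := by
    by_contra hn
    exact not_both he (Dp_ne_zero_of_Ap h) (Dp_ne_zero_of_Ap hn)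
  have hu := union_law (u := fun i => (ℓ i : ℝ)) he (by rwa [AR_intCast])
  have e : -(fun i => (ℓ i : ℝ)) = fun i => (((-ℓ) i : ℤ) : ℝ) := funext fun i => by simp
  rw [e, AR_intCast, AR_intCast] at hu
  rw [← prob_compl_eq_zero_iff (measurableSet_Ap ℓ)]
  refine measure_mono_null (fun s hs => ?_) (measure_union_null hu hneg)
  by_cases hm : s ∈ Ap (-ℓ)
  · exact Or.inr hm
  · exact Or.inl fun h => h.elim hs hm

/-- Zero-one in every real direction, given one integer direction of escape. -/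
theorem zero_one_of_int (he : IsElliptic μ) (ℓ : Fin d → ℤ) (hℓ : annealed μ (Ap ℓ) ≠ 0)
    (u : Fin d → ℝ) : annealed μ (AR u) = 0 ∨ annealed μ (AR u) = 1 :=
  zero_one_transfer he ((zero_one_int he ℓ).resolve_left hℓ) u

end Vale.Agent.P147.Law
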