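import Vale.Agent.P147.Law.Defs
import Vale.Agent.P147.Law.Markov

/-!
An `L log L` maximal inequality for the annealed posterior of a countable family of disjoint events.
-/

noncomputable section

namespace Vale.Agent.P147.Law

open MeasureTheory ProbabilityTheory
open scoped ENNReal

variable {d : ℕ} {μ : Measure (Row d)} {ι : Type*}

open scoped Classical in
/-- The mean of `g` over the events compatible with the prefix `c`, relative to its weight. -/
def post (μ : Measure (Row d)) (A : ι → List (Dir d)) (E : ι → Set (Walk d)) (g : ι → ℝ≥0∞)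
    (c : List (Dir d)) : ℝ≥0∞ :=
  (∑' v, if c <+: A v then annealed μ (E v) * g v else 0) / W μ c

open scoped Classical in
/-- The largest posterior after the prefix `c₀`. -/
def postSup (μ : Measure (Row d)) (A : ι → List (Dir d)) (E : ι → Set (Walk d)) (g : ι → ℝ≥0∞)
    (c₀ : List (Dir d)) (s : Walk d) : ℝ≥0∞ :=
  ⨆ t, if c₀ <+: pre s t then post μ A E g (pre s t) else 0

open scoped Classical in
/-- The number of dyadic levels above `π` below `g`. -/
def lcount (π g : ℝ≥0∞) : ℝ≥0∞ := ∑' k : ℕ, if 2 ^ k * π < g then 1 else 0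

lemma measurable_postSup (A : ι → List (Dir d)) (E : ι → Set (Walk d)) (g : ι → ℝ≥0∞)
    (c₀ : List (Dir d)) : Measurable (postSup μ A E g c₀) := by
  classical
  refine Measurable.iSup fun t => ?_
  exact (@measurable_from_top (List (Dir d)) ℝ≥0∞ _
    (fun l => if c₀ <+: l then post μ A E g l else 0)).comp (measurable_pre t)

lemma le_layers {π : ℝ≥0∞} (hπ : π ≠ 0) (x : ℝ≥0∞) :
    x ≤ 2 * π + ∑' k : ℕ, if 2 ^ (k + 1) * π < x then 2 ^ (k + 2) * π else 0 := by
  classical
  rcases le_or_gt x (2 * π) with h | h
  · exact h.trans le_self_add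
  rcases eq_or_ne x ⊤ with rfl | hx
  · refine le_add_left ?_
    rcases eq_or_ne π ⊤ with rfl | hπt
    · simp at h
    have h1 : ∀ k : ℕ, π ≤ if 2 ^ (k + 1) * π < ⊤ then 2 ^ (k + 2) * π else 0 := fun k => by
      rw [if_pos (ENNReal.mul_lt_top (ENNReal.pow_lt_top (by simp)) (lt_top_iff_ne_top.2 hπt))]
      exact le_mul_of_one_le_left' (one_le_pow₀ one_le_two)
    refine le_trans ?_ (ENNReal.tsum_le_tsum h1)
    rw [ENNReal.tsum_const_eq_top_of_ne_zero hπ]
  · have hex : ∃ k : ℕ, x ≤ 2 ^ (k + 2) * π := by
      obtain ⟨n, hn⟩ := ENNReal.exists_nat_mul_gt hπ hx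
      refine ⟨n, hn.le.trans (mul_le_mul' ?_ le_rfl)⟩
      exact_mod_cast (Nat.lt_two_pow_self (n := n + 2)).le.trans' (Nat.le_add_right n 2)
    have hk : 2 ^ (Nat.find hex + 1) * π < x := by
      rcases Nat.eq_zero_or_pos (Nat.find hex) with h0 | h0
      · rw [h0]; simpa using h
      · have := Nat.find_min hex (Nat.sub_lt h0 one_pos)
        rw [not_le] at this
        convert this using 3
        omega
    refine le_add_left (le_trans ?_ (ENNReal.le_tsum (Nat.find hex)))
    rw [if_pos hk]
    exact Nat.find_spec hex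

variable [IsProbabilityMeasure μ] [Countable ι]

open scoped Classical in
/-- Weak maximal inequality. -/
theorem post_tail (he : IsElliptic μ) (A : ι → List (Dir d)) (E : ι → Set (Walk d))
    (hEm : ∀ v, MeasurableSet (E v)) (hd : Pairwise fun v w => Disjoint (E v) (E w))
    (hE : ∀ v, E v ⊆ cyl (A v)) (g : ι → ℝ≥0∞) (c₀ : List (Dir d)) {a : ℝ≥0∞} (ha : a ≠ ⊤) :
    a * annealed μ {s | 2 * a < postSup μ A E g c₀ s} ≤
      ∑' v, if a < g v then annealed μ (E v) * g v else 0 := by
  set P : List (Dir d) → Prop := fun l => c₀ <+: l ∧ 2 * a < post μ A E g l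
  calc a * annealed μ {s | 2 * a < postSup μ A E g c₀ s}
      ≤ a * annealed μ (⋃ l : First P, cyl l.1) := by
        refine mul_le_mul' le_rfl (measure_mono fun s hs => ?_)
        obtain ⟨t, ht⟩ := lt_iSup_iff.1 (show 2 * a < postSup μ A E g c₀ s from hs)
        split_ifs at ht with hc
        · obtain ⟨j, hj, -⟩ := exists_first P (s := s) ⟨t, hc, ht⟩
          exact Set.mem_iUnion.2 ⟨⟨_, hj⟩, by rw [mem_cyl_iff]; simp⟩
        · exact absurd ht not_lt_zero
    _ ≤ ∑' l : First P, a * W μ l.1 := by
        rw [ENNReal.tsum_mul_left]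
        refine mul_le_mul' le_rfl ((measure_iUnion_le _).trans (le_of_eq ?_))
        simp [annealed_cyl]
    _ ≤ ∑' l : First P, ∑' v,
          if l.1 <+: A v then (if a < g v then annealed μ (E v) * g v else 0) else 0 := by
        refine ENNReal.tsum_le_tsum fun l => ?_
        have hW : W μ l.1 ≠ 0 := (W_pos he _).ne'
        have h1 := l.2.1.2
        rw [post, ENNReal.lt_div_iff_mul_lt (Or.inl hW) (Or.inl (W_ne_top _))] at h1
        have h2 : ∑' v, (if l.1 <+: A v then annealed μ (E v) else 0) ≤ W μ l.1 := by
          let F : ι → Set (Walk d) := fun v => if l.1 <+: A v then E v else ∅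
          have hF : ∀ v, annealed μ (F v) = if l.1 <+: A v then annealed μ (E v) else 0 := by
            intro v; simp only [F]; split_ifs <;> simp
          simp only [← hF]
          rw [← measure_iUnion, ← annealed_cyl]
          · refine measure_mono (Set.iUnion_subset fun v => ?_)
            simp only [F]
            split_ifs with hv
            · exact (hE v).trans (cyl_subset_of_take (List.prefix_iff_eq_take.1 hv).symm)
            · exact Set.empty_subset _
          · intro v w hvw
            simp only [F, Function.onFun]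
            split_ifs <;> simp [hd hvw]
          · intro v
            simp only [F]
            split_ifs
            · exact hEm v
            · exact MeasurableSet.empty
        have h3 : 2 * a * W μ l.1 ≤ a * W μ l.1 + ∑' v,
            if l.1 <+: A v then (if a < g v then annealed μ (E v) * g v else 0) else 0 := by
          refine h1.le.trans ?_
          refine le_trans ?_ (add_le_add (mul_le_mul' le_rfl h2) le_rfl)
          rw [← ENNReal.tsum_mul_left, ← ENNReal.tsum_add]
          refine ENNReal.tsum_le_tsum fun v => ?_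
          split_ifs with hv hg
          · exact le_add_self
          · rw [add_zero, mul_comm a]
            exact mul_le_mul' le_rfl (not_lt.1 hg)
          · exact zero_le
        rw [two_mul, add_mul] at h3
        exact (ENNReal.add_le_add_iff_left (ENNReal.mul_ne_top ha (W_ne_top _))).1 h3
    _ = ∑' v, ∑' l : First P,
          if l.1 <+: A v then (if a < g v then annealed μ (E v) * g v else 0) else 0 :=
        ENNReal.tsum_comm
    _ ≤ _ := by
        refine ENNReal.tsum_le_tsum fun v => ?_
        by_cases h : ∃ l : First P, l.1 <+: A v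
        · obtain ⟨l, hl⟩ := h
          rw [tsum_eq_single l]
          · rw [if_pos hl]
          · intro m hm
            refine if_neg fun hmv => hm (Subtype.ext ?_)
            rcases List.prefix_or_prefix_of_prefix hmv hl with h | h
            · rcases h.length_le.lt_or_eq with h' | h'
              · exact absurd ((List.prefix_iff_eq_take.1 h) ▸ m.2.1) (l.2.2 _ h')
              · exact h.eq_of_length h'
            · rcases h.length_le.lt_or_eq with h' | h'
              · exact absurd ((List.prefix_iff_eq_take.1 h) ▸ l.2.1) (m.2.2 _ h')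
              · exact (h.eq_of_length h').symm
        · push Not at h
          simp [h]

open scoped Classical in
/-- The `L log L` maximal inequality. -/
theorem lintegral_postSup_le (he : IsElliptic μ) (A : ι → List (Dir d)) (E : ι → Set (Walk d))
    (hEm : ∀ v, MeasurableSet (E v)) (hd : Pairwise fun v w => Disjoint (E v) (E w))
    (hE : ∀ v, E v ⊆ cyl (A v)) (g : ι → ℝ≥0∞) (c₀ : List (Dir d))
    {π : ℝ≥0∞} (hπ : π ≠ 0) (hπt : π ≠ ⊤) :
    ∫⁻ s, postSup μ A E g c₀ s ∂annealed μ ≤
      2 * π * W μ c₀ + 4 * ∑' v, annealed μ (E v) * g v * lcount π (g v) := by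
  set S := postSup μ A E g c₀
  have hS := measurable_postSup (μ := μ) A E g c₀
  have hsupp : ∀ s, S s ≤ (cyl c₀).indicator (fun _ => 2 * π) s +
      ∑' k : ℕ, ({s | 2 * (2 ^ k * π) < S s}).indicator (fun _ => 2 ^ (k + 2) * π) s := by
    intro s
    by_cases hs : s ∈ cyl c₀
    · rw [Set.indicator_of_mem hs]
      refine (le_layers hπ (S s)).trans (le_of_eq (congrArg _ (tsum_congr fun k => ?_)))
      simp [Set.indicator_apply, pow_succ', mul_assoc]
    · have : S s = 0 := by
        simp only [S, postSup, ENNReal.iSup_eq_zero]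
        intro t
        refine if_neg fun hc => hs ?_
        exact cyl_subset_of_take (List.prefix_iff_eq_take.1 hc).symm (by rw [mem_cyl_iff]; simp)
      rw [this]; exact zero_le
  have hmk : ∀ k : ℕ, MeasurableSet {s | 2 * (2 ^ k * π) < S s} := fun k =>
    measurableSet_lt measurable_const hS
  refine (lintegral_mono hsupp).trans ?_
  rw [lintegral_add_left (measurable_const.indicator (measurableSet_cyl _)),
    lintegral_indicator_const (measurableSet_cyl _), annealed_cyl,
    lintegral_tsum fun k => (measurable_const.indicator (hmk k)).aemeasurable]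
  refine add_le_add le_rfl ?_
  calc ∑' k : ℕ, ∫⁻ s, ({s | 2 * (2 ^ k * π) < S s}).indicator (fun _ => 2 ^ (k + 2) * π) s
          ∂annealed μ
      ≤ ∑' k : ℕ, 4 * ∑' v, if 2 ^ k * π < g v then annealed μ (E v) * g v else 0 := by
        refine ENNReal.tsum_le_tsum fun k => ?_
        rw [lintegral_indicator_const (hmk k)]
        calc 2 ^ (k + 2) * π * annealed μ {s | 2 * (2 ^ k * π) < S s}
            = 4 * (2 ^ k * π * annealed μ {s | 2 * (2 ^ k * π) < S s}) := by rw [pow_add]; ring
          _ ≤ _ := mul_le_mul' le_rfl (post_tail he A E hEm hd hE g c₀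
              (ENNReal.mul_ne_top (ENNReal.pow_ne_top (by simp)) hπt))
    _ = 4 * ∑' v, annealed μ (E v) * g v * lcount π (g v) := by
        rw [ENNReal.tsum_mul_left, ENNReal.tsum_comm]
        refine congrArg _ (tsum_congr fun v => ?_)
        rw [lcount, ← ENNReal.tsum_mul_left]
        exact tsum_congr fun k => by split_ifs <;> simp

omit [IsProbabilityMeasure μ] [Countable ι] in
lemma lcount_le {π g : ℝ≥0∞} (hπ : π ≠ 0) (hπt : π ≠ ⊤) (hg : g ≠ ⊤) :
    lcount π g ≤ 1 + 2 * lpos g π := by
  classical
  set L : ℝ := max 0 (Real.log (g.toReal / π.toReal)) with hL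
  have key : lcount π g ≤ (⌈2 * L⌉₊ : ℕ) := by
    have hmem' : ∀ k : ℕ, 2 ^ k * π < g → k < ⌈2 * L⌉₊ := by
      intro k hk
      have hp : 0 < π.toReal := ENNReal.toReal_pos hπ hπt
      have h1 : (2 : ℝ) ^ k * π.toReal < g.toReal := by
        simpa using ENNReal.toReal_strict_mono hg hk
      have h2 : (k : ℝ) * Real.log 2 < L := by
        refine lt_of_lt_of_le ?_ (le_max_right _ _)
        rw [← Real.log_pow]
        exact Real.log_lt_log (by positivity) (by rwa [lt_div_iff₀ hp])
      have h4 : (k : ℝ) * (1 / 2) ≤ (k : ℝ) * Real.log 2 :=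
        mul_le_mul_of_nonneg_left (by linarith [Real.log_two_gt_d9]) (Nat.cast_nonneg _)
      exact_mod_cast (lt_of_lt_of_le (by linarith) (Nat.le_ceil _) : (k : ℝ) < ⌈2 * L⌉₊)
    rw [lcount, tsum_eq_sum (s := Finset.range ⌈2 * L⌉₊)
      (fun k hk => if_neg fun h => hk (Finset.mem_range.2 (hmem' k h)))]
    refine (Finset.sum_le_sum fun k _ => ?_).trans (le_of_eq (b := ((⌈2 * L⌉₊ : ℕ) : ℝ≥0∞))
      (by simp) : (∑ _k ∈ Finset.range ⌈2 * L⌉₊, (1 : ℝ≥0∞)) ≤ _)
    split_ifs <;> simp
  refine key.trans ?_
  have hLe : ENNReal.ofReal L = lpos g π := by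
    rw [lpos, hL]
    rcases le_total 0 (Real.log (g.toReal / π.toReal)) with h | h
    · rw [max_eq_right h]
    · rw [max_eq_left h, ENNReal.ofReal_zero, ENNReal.ofReal_of_nonpos h]
  rw [← hLe, ← ENNReal.ofReal_natCast]
  refine (ENNReal.ofReal_le_ofReal (Nat.ceil_lt_add_one (by positivity)).le).trans ?_
  rw [ENNReal.ofReal_add (by positivity) zero_le_one, ENNReal.ofReal_one, add_comm,
    ENNReal.ofReal_mul (by norm_num), ENNReal.ofReal_ofNat]

end Vale.Agent.P147.Law
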