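import Vale.Agent.P147.Law.Maximal

/-!
Configurations of a band and the posterior weight of their top.
-/

noncomputable section

namespace Vale.Agent.P147.Law

open MeasureTheory ProbabilityTheory
open scoped ENNReal

variable {d : ℕ} {μ : Measure (Row d)} {ℓ : Fin d → ℤ} {n₁ n₂ : ℕ} {Ns : Finset ℕ}

/-- Blocks cut into a bottom of `n₀ ∈ Ns` blocks, a band of `n₁` and a top of `n₂`. -/
abbrev Conf (ℓ : Fin d → ℤ) (Ns : Finset ℕ) (n₁ n₂ : ℕ) : Type :=
  Σ n₀ : Ns, (Fin n₀.1 → Blk ℓ) × (Fin n₁ → Blk ℓ) × (Fin n₂ → Blk ℓ)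

/-- The path of a configuration. -/
def cpath (x : Conf ℓ Ns n₁ n₂) : List (Dir d) := cat x.2.1 ++ cat x.2.2.1 ++ cat x.2.2.2

/-- The weight of a configuration. -/
def cwt (μ : Measure (Row d)) (x : Conf ℓ Ns n₁ n₂) : ℝ≥0∞ :=
  W μ (cat x.2.1) * W μ (cat x.2.2.1) * W μ (cat x.2.2.2)

/-- The blocks up to the end of the band. -/
def upA {n₀ : ℕ} (u : Fin n₀ → Blk ℓ) (v : Fin n₁ → Blk ℓ) : List (Dir d) := cat u ++ cat v

/-- The event of the blocks up to the end of the band. -/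
def upE {n₀ : ℕ} (u : Fin n₀ → Blk ℓ) (v : Fin n₁ → Blk ℓ) : Set (Walk d) :=
  blkEvent (Fin.append u v)

/-- The weight of reaching `z` with the top blocks. -/
def upG (μ : Measure (Row d)) (n₂ : ℕ) {n₀ : ℕ} (u : Fin n₀ → Blk ℓ) (z : Fin d → ℤ)
    (v : Fin n₁ → Blk ℓ) : ℝ≥0∞ :=
  nu μ ℓ n₂ (z - endPt (upA u v))

open scoped Classical in
/-- The posterior of the top `z` after the prefix `c`. -/
def mHat (μ : Measure (Row d)) (ℓ : Fin d → ℤ) (Ns : Finset ℕ) (n₁ n₂ : ℕ) (z : Fin d → ℤ)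
    (c : List (Dir d)) : ℝ≥0∞ :=
  (annealed μ (Dp ℓ))⁻¹ * ∑' n₀ : Ns, ∑' u : Fin n₀.1 → Blk ℓ,
    if cat u <+: c then post μ (upA (n₁ := n₁) u) (upE u) (upG μ n₂ u z) c else 0

/-- Its supremum along a trajectory. -/
def mSup (μ : Measure (Row d)) (ℓ : Fin d → ℤ) (Ns : Finset ℕ) (n₁ n₂ : ℕ) (z : Fin d → ℤ)
    (s : Walk d) : ℝ≥0∞ :=
  ⨆ t, mHat μ ℓ Ns n₁ n₂ z (pre s t)

lemma measurable_mSup (z : Fin d → ℤ) : Measurable (mSup μ ℓ Ns n₁ n₂ z) := by
  refine Measurable.iSup fun t => ?_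
  exact (@measurable_from_top (List (Dir d)) ℝ≥0∞ _ (mHat μ ℓ Ns n₁ n₂ z)).comp (measurable_pre t)

variable [IsProbabilityMeasure μ]

lemma annealed_upE {n₀ : ℕ} (u : Fin n₀ → Blk ℓ) (v : Fin n₁ → Blk ℓ) :
    annealed μ (upE u v) = W μ (cat u) * W μ (cat v) * annealed μ (Dp ℓ) := by
  rw [upE, annealed_blkEvent, ← W_cat, W_cat_append]

lemma nu_mul_le {n₀ : ℕ} (u : Fin n₀ → Blk ℓ) (v : Fin n₁ → Blk ℓ) (z : Fin d → ℤ) :
    W μ (cat v) * upG μ n₂ u z v ≤ nu μ ℓ (n₁ + n₂) (z - endPt (cat u)) := by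
  classical
  simp only [upG, nu]
  rw [tsum_split, ← ENNReal.tsum_mul_left]
  refine le_trans (ENNReal.tsum_le_tsum fun w => ?_) (ENNReal.le_tsum v)
  split_ifs with h1 h2
  · rw [W_cat_append]
  · refine absurd ?_ h2
    rw [cat_append, endPt_append, h1, upA, endPt_append]
    abel
  · simp
  · simp

/-- The mean supremum of the posterior, summed over the tops. -/
theorem tsum_mSup_le (he : IsElliptic μ) (hp : annealed μ (Dp ℓ) ≠ 0) :
    ∑' z, ∫⁻ s, mSup μ ℓ Ns n₁ n₂ z s ∂annealed μ ≤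
      Ns.card * ((annealed μ (Dp ℓ))⁻¹ * (6 + 8 * info μ ℓ n₁ n₂)) := by
  classical
  set p := annealed μ (Dp ℓ)
  set I := info μ ℓ n₁ n₂
  have hAm : ∀ {n₀ : ℕ} (u : Fin n₀ → Blk ℓ) (v : Fin n₁ → Blk ℓ), upE u v ⊆ cyl (upA u v) :=
    fun u v s hs => by rw [upA, ← cat_append]; exact hs.1
  have h1 : ∀ z, ∫⁻ s, mSup μ ℓ Ns n₁ n₂ z s ∂annealed μ ≤ p⁻¹ * ∑' n₀ : Ns,
      ∑' u : Fin n₀.1 → Blk ℓ,
        ∫⁻ s, postSup μ (upA (n₁ := n₁) u) (upE u) (upG μ n₂ u z) (cat u) s ∂annealed μ := by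
    intro z
    have hm : ∀ n₀ : Ns, Measurable fun s : Walk d => ∑' u : Fin n₀.1 → Blk ℓ,
        postSup μ (upA (n₁ := n₁) u) (upE u) (upG μ n₂ u z) (cat u) s :=
      fun n₀ => Measurable.tsum fun u => measurable_postSup _ _ _ _
    simp only [← lintegral_tsum fun u => (measurable_postSup (μ := μ) _ _ _ _).aemeasurable]
    rw [← lintegral_tsum fun n₀ => (hm n₀).aemeasurable,
      ← lintegral_const_mul _ (Measurable.tsum hm)]
    refine lintegral_mono fun s => iSup_le fun t => ?_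
    refine mul_le_mul' le_rfl (ENNReal.tsum_le_tsum fun n₀ => ENNReal.tsum_le_tsum fun u => ?_)
    exact le_iSup (fun t => if cat u <+: pre s t then
      post μ (upA (n₁ := n₁) u) (upE u) (upG μ n₂ u z) (pre s t) else 0) t
  refine (ENNReal.tsum_le_tsum h1).trans ?_
  rw [ENNReal.tsum_mul_left, ENNReal.tsum_comm, mul_left_comm (Ns.card : ℝ≥0∞)]
  refine mul_le_mul' le_rfl ?_
  calc _ ≤ ∑' _n₀ : Ns, (6 + 8 * I) := ENNReal.tsum_le_tsum fun n₀ => ?_
    _ = _ := by simp [tsum_fintype, mul_add]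
  rw [ENNReal.tsum_comm]
  have hu : ∀ u : Fin n₀.1 → Blk ℓ,
      ∑' z, ∫⁻ s, postSup μ (upA (n₁ := n₁) u) (upE u) (upG μ n₂ u z) (cat u) s ∂annealed μ ≤
      W μ (cat u) * (6 + 8 * I) := by
    intro u
    set π : (Fin d → ℤ) → ℝ≥0∞ := fun z => nu μ ℓ (n₁ + n₂) (z - endPt (cat u))
    have hone : ∀ k, ∑' y, nu μ ℓ k y = 1 := fun k => by
      have := tsum_nu_mul (μ := μ) (ℓ := ℓ) k (fun _ => (1 : ℝ≥0∞))
      simp only [mul_one] at this
      rw [← this, tsum_W_cat hp]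
    have hne : ∀ k y, nu μ ℓ k y ≠ ⊤ := fun k y =>
      ne_top_of_le_ne_top ENNReal.one_ne_top ((ENNReal.le_tsum y).trans (hone k).le)
    have hz : ∀ z, ∫⁻ s, postSup μ (upA (n₁ := n₁) u) (upE u) (upG μ n₂ u z) (cat u) s
        ∂annealed μ ≤ 2 * π z * W μ (cat u) + 4 * ∑' v : Fin n₁ → Blk ℓ,
          W μ (cat u) * (W μ (cat v) * (upG μ n₂ u z v * (1 + 2 * lpos (upG μ n₂ u z v) (π z)))) := by
      intro z
      rcases eq_or_ne (π z) 0 with h0 | h0
      · have hg : ∀ v, upG μ n₂ u z v = 0 := fun v => by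
          have := nu_mul_le (μ := μ) (n₂ := n₂) u v z
          rw [show nu μ ℓ (n₁ + n₂) (z - endPt (cat u)) = 0 from h0, nonpos_iff_eq_zero,
            mul_eq_zero] at this
          exact this.resolve_left (W_pos he _).ne'
        have : ∀ s, postSup μ (upA (n₁ := n₁) u) (upE u) (upG μ n₂ u z) (cat u) s = 0 := by
          intro s
          simp [postSup, post, hg]
        simp [this]
      · refine (lintegral_postSup_le he _ _ (fun v => measurableSet_blkEvent _) ?_ (hAm u) _ _ h0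
          (hne _ _)).trans (add_le_add le_rfl (mul_le_mul' le_rfl (ENNReal.tsum_le_tsum fun v => ?_)))
        · intro v w hvw
          exact blkEvent_disjoint _ fun h => hvw (funext fun i => by simpa using congrFun h (Fin.natAdd _ i))
        · change annealed μ (upE u v) * _ * _ ≤ _
          rw [annealed_upE, show W μ (cat u) * (W μ (cat v) * (upG μ n₂ u z v *
            (1 + 2 * lpos (upG μ n₂ u z v) (π z)))) = W μ (cat u) * W μ (cat v) * 1 *
              upG μ n₂ u z v * (1 + 2 * lpos (upG μ n₂ u z v) (π z)) by ring]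
          exact mul_le_mul' (mul_le_mul' (mul_le_mul' le_rfl prob_le_one) le_rfl)
            (lcount_le h0 (hne _ _) (hne _ _))
    refine (ENNReal.tsum_le_tsum hz).trans ?_
    rw [ENNReal.tsum_add, ENNReal.tsum_mul_left, ENNReal.tsum_mul_right, ENNReal.tsum_mul_left,
      ENNReal.tsum_comm]
    have hπ : ∑' z, π z = 1 := by
      conv_lhs => rw [← (Equiv.addRight (endPt (cat u))).tsum_eq]
      simp only [π, Equiv.coe_addRight, add_sub_cancel_right]
      exact hone _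
    simp only [ENNReal.tsum_mul_left, hπ, mul_one]
    have hv : ∑' v : Fin n₁ → Blk ℓ, W μ (cat v) *
        ∑' z, upG μ n₂ u z v * (1 + 2 * lpos (upG μ n₂ u z v) (π z)) = 1 + 2 * I := by
      have e : ∀ v : Fin n₁ → Blk ℓ,
          ∑' z, upG μ n₂ u z v * (1 + 2 * lpos (upG μ n₂ u z v) (π z)) =
            ∑' x, nu μ ℓ n₂ x *
              (1 + 2 * lpos (nu μ ℓ n₂ x) (nu μ ℓ (n₁ + n₂) (endPt (cat v) + x))) := by
        intro v
        conv_lhs => rw [← (Equiv.addRight (endPt (upA u v))).tsum_eq]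
        refine tsum_congr fun x => ?_
        simp only [upG, π, Equiv.coe_addRight, add_sub_cancel_right, upA, endPt_append]
        congr 6
        abel
      simp only [e]
      rw [tsum_nu_mul n₁ fun y => ∑' x, nu μ ℓ n₂ x *
        (1 + 2 * lpos (nu μ ℓ n₂ x) (nu μ ℓ (n₁ + n₂) (y + x)))]
      simp only [mul_add, mul_one, ENNReal.tsum_add, hone]
      refine congrArg _ ?_
      rw [show I = info μ ℓ n₁ n₂ from rfl, info]
      simp only [← ENNReal.tsum_mul_left]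
      exact tsum_congr fun y => tsum_congr fun x => by ring
    rw [hv]
    exact le_of_eq (by ring)
  refine (ENNReal.tsum_le_tsum hu).trans (le_of_eq ?_)
  rw [ENNReal.tsum_mul_right, tsum_W_cat hp, one_mul]

end Vale.Agent.P147.Law
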